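import Vale.Agent.H12.P113.Deriv

set_option autoImplicit false

/-! Primitive recursive simulation of machines and primitive recursive numerics. -/

namespace Vale.Agent.H12.P113

/-! ### Simulation of machines with lists -/

/-- list configurations: state, left part, head symbol, right part -/
abbrev LCfg := ℕ × List ℕ × ℕ × List ℕ

/-- initial list configuration -/
def linit (Mw : Machine × List ℕ) : LCfg := (Mw.1.1, [], Mw.2.headI, Mw.2.tail)

/-- apply the right-hand side of a rule -/
def lapply (c : LCfg) (r : ℕ × ℕ × Fin 3) : LCfg :=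
  if (r.2.2 : ℕ) = 0 then (r.1, c.2.1.tail, c.2.1.headI, r.2.1 :: c.2.2.2)
  else if (r.2.2 : ℕ) = 1 then (r.1, c.2.1, r.2.1, c.2.2.2)
  else (r.1, r.2.1 :: c.2.1, c.2.2.2.headI, c.2.2.2.tail)

/-- one step on list configurations -/
def lstep (Mw : Machine × List ℕ) (c : LCfg) : LCfg :=
  ((Mw.1.2.2.lookup (c.1, c.2.2.1)).map (lapply c)).getD c

/-- the correspondence between configurations -/
def Rel (c : Cfg) (l : LCfg) : Prop :=
  c.state = l.1 ∧ c.tape c.pos = l.2.2.1 ∧
    (∀ i : ℕ, c.tape (c.pos + 1 + i) = l.2.2.2.getD i 0) ∧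
    (∀ i : ℕ, c.tape (c.pos - 1 - i) = l.2.1.getD i 0)

lemma headI_eq_getD (l : List ℕ) : l.headI = l.getD 0 0 := by
  cases l <;> rfl

lemma tail_getD (l : List ℕ) (i : ℕ) : l.tail.getD i 0 = l.getD (i + 1) 0 := by
  cases l <;> simp

lemma rel_init (M : Machine) (w : List ℕ) : Rel (Cfg.init M w) (linit (M, w)) := by
  refine ⟨rfl, ?_, ?_, ?_⟩
  · simp [Cfg.init, linit, headI_eq_getD]
  · intro i
    have h : (0 : ℤ) ≤ 0 + 1 + (i : ℤ) := by omega
    have h2 : ((0 : ℤ) + 1 + (i : ℤ)).toNat = i + 1 := by omega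
    simp only [Cfg.init, linit, if_pos h, h2, tail_getD]
  · intro i
    have h : ¬ (0 : ℤ) ≤ 0 - 1 - (i : ℤ) := by omega
    simp only [Cfg.init, linit, if_neg h]
    simp

lemma rel_step (M : Machine) (w : List ℕ) {c : Cfg} {l : LCfg} (h : Rel c l) :
    Rel (Cfg.step M c) (lstep (M, w) l) := by
  obtain ⟨h1, h2, h3, h4⟩ := h
  unfold Cfg.step lstep
  rw [h1, h2]
  cases hl : M.2.2.lookup (l.1, l.2.2.1) with
  | none => exact ⟨h1, h2, h3, h4⟩
  | some r =>
    obtain ⟨q, b, d⟩ := r
    simp only [Option.map_some, Option.getD_some, Option.elim_some]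
    fin_cases d
    · -- left
      refine ⟨rfl, ?_, ?_, ?_⟩
      · have := h4 0
        simp only [Nat.cast_zero, sub_zero] at this
        show Function.update c.tape c.pos b (c.pos + ((0 : ℕ) : ℤ) - 1) = l.2.1.headI
        rw [Function.update_of_ne (by omega), headI_eq_getD, ← this]
        congr 1
        omega
      · intro i
        show Function.update c.tape c.pos b (c.pos + ((0 : ℕ) : ℤ) - 1 + 1 + i)
          = (b :: l.2.2.2).getD i 0
        cases i with
        | zero =>
          have : c.pos + ((0 : ℕ) : ℤ) - 1 + 1 + ((0 : ℕ) : ℤ) = c.pos := by omega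
          rw [this]; simp
        | succ i =>
          have e : c.pos + ((0 : ℕ) : ℤ) - 1 + 1 + ((i + 1 : ℕ) : ℤ) = c.pos + 1 + i := by
            push_cast; ring
          rw [e, Function.update_of_ne (by omega), h3 i]; simp
      · intro i
        show Function.update c.tape c.pos b (c.pos + ((0 : ℕ) : ℤ) - 1 - 1 - i)
          = l.2.1.tail.getD i 0
        have e : c.pos + ((0 : ℕ) : ℤ) - 1 - 1 - (i : ℤ) = c.pos - 1 - ((i + 1 : ℕ) : ℤ) := by
          push_cast; ring
        rw [e, Function.update_of_ne (by omega), h4 (i + 1), tail_getD]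
    · -- stay
      refine ⟨rfl, ?_, ?_, ?_⟩
      · show Function.update c.tape c.pos b (c.pos + ((1 : ℕ) : ℤ) - 1) = b
        have : c.pos + ((1 : ℕ) : ℤ) - 1 = c.pos := by omega
        rw [this]; simp
      · intro i
        show Function.update c.tape c.pos b (c.pos + ((1 : ℕ) : ℤ) - 1 + 1 + i)
          = l.2.2.2.getD i 0
        have e : c.pos + ((1 : ℕ) : ℤ) - 1 + 1 + (i : ℤ) = c.pos + 1 + i := by
          push_cast; ring
        rw [e, Function.update_of_ne (by omega), h3 i]
      · intro i
        show Function.update c.tape c.pos b (c.pos + ((1 : ℕ) : ℤ) - 1 - 1 - i)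
          = l.2.1.getD i 0
        have e : c.pos + ((1 : ℕ) : ℤ) - 1 - 1 - (i : ℤ) = c.pos - 1 - i := by
          push_cast; ring
        rw [e, Function.update_of_ne (by omega), h4 i]
    · -- right
      refine ⟨rfl, ?_, ?_, ?_⟩
      · have := h3 0
        simp only [Nat.cast_zero, add_zero] at this
        show Function.update c.tape c.pos b (c.pos + ((2 : ℕ) : ℤ) - 1) = l.2.2.2.headI
        rw [Function.update_of_ne (by push_cast; omega), headI_eq_getD, ← this]
        congr 1
        push_cast
        omega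
      · intro i
        show Function.update c.tape c.pos b (c.pos + ((2 : ℕ) : ℤ) - 1 + 1 + i)
          = l.2.2.2.tail.getD i 0
        have e : c.pos + ((2 : ℕ) : ℤ) - 1 + 1 + (i : ℤ) = c.pos + 1 + ((i + 1 : ℕ) : ℤ) := by
          push_cast; ring
        rw [e, Function.update_of_ne (by omega), h3 (i + 1), tail_getD]
      · intro i
        show Function.update c.tape c.pos b (c.pos + ((2 : ℕ) : ℤ) - 1 - 1 - i)
          = (b :: l.2.1).getD i 0
        cases i with
        | zero =>
          have : c.pos + ((2 : ℕ) : ℤ) - 1 - 1 - ((0 : ℕ) : ℤ) = c.pos := by push_cast; omega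
          rw [this]; simp
        | succ i =>
          have e : c.pos + ((2 : ℕ) : ℤ) - 1 - 1 - ((i + 1 : ℕ) : ℤ) = c.pos - 1 - i := by
            push_cast; ring
          rw [e, Function.update_of_ne (by omega), h4 i]; simp

lemma rel_iter (M : Machine) (w : List ℕ) (n : ℕ) :
    Rel ((Cfg.step M)^[n] (Cfg.init M w)) ((lstep (M, w))^[n] (linit (M, w))) := by
  induction n with
  | zero => exact rel_init M w
  | succ n ih =>
    rw [Function.iterate_succ_apply', Function.iterate_succ_apply']
    exact rel_step M w ih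

/-- has the machine halted at step `n`? -/
def haltAt (Mw : Machine × List ℕ) (n : ℕ) : Bool :=
  decide (((lstep Mw)^[n] (linit Mw)).1 ∈ Mw.1.2.1)

lemma halts_iff (M : Machine) (w : List ℕ) : Halts M w ↔ ∃ n, haltAt (M, w) n = true := by
  unfold Halts haltAt
  refine exists_congr fun n => ?_
  rw [(rel_iter M w n).1]
  simp

/-- least halting time at most `S`, or `S + 1` -/
def firstHalt (Mw : Machine × List ℕ) (S : ℕ) : ℕ :=
  (List.range (S + 1)).findIdx (fun s => haltAt Mw s)

lemma firstHalt_spec {Mw : Machine × List ℕ} {S : ℕ} (h : firstHalt Mw S ≤ S) :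
    haltAt Mw (firstHalt Mw S) = true := by
  unfold firstHalt at h ⊢
  have h1 : (List.range (S + 1)).findIdx (fun s => haltAt Mw s) < (List.range (S + 1)).length := by
    rw [List.length_range]; omega
  have := List.findIdx_getElem (w := h1)
  simpa using this

lemma firstHalt_min {Mw : Machine × List ℕ} {S i : ℕ} (h : i < firstHalt Mw S) :
    haltAt Mw i = false := by
  unfold firstHalt at h
  have := List.not_of_lt_findIdx h
  simpa using this

/-- amplitude -/
noncomputable def kappa (M : Machine) (w : List ℕ) : ℝ :=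
  open Classical in
  if h : ∃ n, haltAt (M, w) n = true then 1 / ((Nat.find h : ℝ) + 1) else 0

lemma kappa_nonneg (M : Machine) (w : List ℕ) : 0 ≤ kappa M w := by
  unfold kappa
  split_ifs with h
  · positivity
  · exact le_rfl

lemma kappa_le_one (M : Machine) (w : List ℕ) : kappa M w ≤ 1 := by
  unfold kappa
  split_ifs with h
  · rw [div_le_one (by positivity)]
    have : (0 : ℝ) ≤ Nat.find h := Nat.cast_nonneg _
    linarith
  · exact zero_le_one

lemma kappa_pos_iff (M : Machine) (w : List ℕ) : 0 < kappa M w ↔ Halts M w := by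
  rw [halts_iff]
  unfold kappa
  split_ifs with h
  · simp only [h, iff_true]
    positivity
  · simp only [h, lt_self_iff_false]

lemma kappa_of_le {M : Machine} {w : List ℕ} {S : ℕ} (h : firstHalt (M, w) S ≤ S) :
    kappa M w = 1 / ((firstHalt (M, w) S : ℝ) + 1) := by
  have hex : ∃ n, haltAt (M, w) n = true := ⟨_, firstHalt_spec h⟩
  unfold kappa
  rw [dif_pos hex]
  have : Nat.find hex = firstHalt (M, w) S := by
    rw [Nat.find_eq_iff]
    refine ⟨firstHalt_spec h, fun i hi => ?_⟩
    rw [firstHalt_min hi]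
    simp
  rw [this]

lemma kappa_of_gt {M : Machine} {w : List ℕ} {S : ℕ} (h : S < firstHalt (M, w) S) :
    kappa M w ≤ 1 / ((S : ℝ) + 1) := by
  unfold kappa
  split_ifs with hex
  · have hS : S < Nat.find hex := by
      by_contra hcon
      have h1 := firstHalt_min (Mw := (M, w)) (S := S) (i := Nat.find hex) (by omega)
      rw [Nat.find_spec hex] at h1
      exact absurd h1 (by simp)
    have : (S : ℝ) ≤ Nat.find hex := by exact_mod_cast hS.le
    exact one_div_le_one_div_of_le (by positivity) (by linarith)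
  · positivity

/-! ### Primitive recursiveness -/

open Primrec

lemma primrec_pow : Primrec₂ (fun a b : ℕ => a ^ b) := Primrec₂.unpaired'.1 Nat.Primrec.pow

lemma primrec_sum {α : Type*} [Primcodable α] {f : α → ℕ} {g : α → ℕ → ℕ} (hf : Primrec f)
    (hg : Primrec₂ g) : Primrec (fun a => ∑ i ∈ Finset.range (f a), g a i) := by
  refine (Primrec.nat_rec' (g := fun _ => 0) (h := fun a p => p.2 + g a p.1) hf
    (Primrec.const 0) ?_).of_eq ?_
  · exact nat_add.comp (snd.comp snd) (hg.comp fst (fst.comp snd))
  · intro a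
    generalize f a = n
    induction n with
    | zero => simp
    | succ n ih => rw [Finset.sum_range_succ, ← ih]

lemma primrec_lapply : Primrec₂ lapply := by
  have hd : Primrec (fun p : LCfg × (ℕ × ℕ × Fin 3) => (p.2.2.2 : ℕ)) :=
    fin_val.comp (snd.comp (snd.comp snd))
  have hq : Primrec (fun p : LCfg × (ℕ × ℕ × Fin 3) => p.2.1) := fst.comp snd
  have hb : Primrec (fun p : LCfg × (ℕ × ℕ × Fin 3) => p.2.2.1) := fst.comp (snd.comp snd)
  have hL : Primrec (fun p : LCfg × (ℕ × ℕ × Fin 3) => p.1.2.1) := fst.comp (snd.comp fst)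
  have hR : Primrec (fun p : LCfg × (ℕ × ℕ × Fin 3) => p.1.2.2.2) :=
    snd.comp (snd.comp (snd.comp fst))
  unfold lapply
  refine Primrec.ite (Primrec.eq.comp hd (Primrec.const 0)) ?_
    (Primrec.ite (Primrec.eq.comp hd (Primrec.const 1)) ?_ ?_)
  · exact hq.pair ((list_tail.comp hL).pair ((list_headI.comp hL).pair (list_cons.comp hb hR)))
  · exact hq.pair (hL.pair (hb.pair hR))
  · exact hq.pair ((list_cons.comp hb hL).pair ((list_headI.comp hR).pair (list_tail.comp hR)))

lemma primrec_lstep : Primrec₂ lstep := by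
  have hrules : Primrec (fun p : (Machine × List ℕ) × LCfg => p.1.1.2.2) :=
    snd.comp (snd.comp (fst.comp fst))
  have hkey : Primrec (fun p : (Machine × List ℕ) × LCfg => (p.2.1, p.2.2.2.1)) :=
    (fst.comp snd).pair (fst.comp (snd.comp (snd.comp snd)))
  have h1 : Primrec (fun p : (Machine × List ℕ) × LCfg =>
      List.lookup (p.2.1, p.2.2.2.1) p.1.1.2.2) := by
    have := Primrec.listLookup.comp hkey hrules
    refine this.of_eq fun p => ?_
    congr 1
    exact lawful_beq_subsingleton _ _
  have h2 : Primrec₂ (fun (p : (Machine × List ℕ) × LCfg) (r : ℕ × ℕ × Fin 3) => lapply p.2 r) :=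
    primrec_lapply.comp (snd.comp fst) snd
  have h3 : Primrec (fun p : (Machine × List ℕ) × LCfg =>
      (List.lookup (p.2.1, p.2.2.2.1) p.1.1.2.2).map (fun r => lapply p.2 r)) :=
    Primrec.option_map h1 h2
  exact Primrec.option_getD.comp h3 snd

lemma primrec_linit : Primrec linit :=
  (fst.comp fst).pair ((Primrec.const []).pair ((list_headI.comp snd).pair (list_tail.comp snd)))

lemma primrec_haltAt : Primrec₂ haltAt := by
  have h1 : Primrec (fun p : (Machine × List ℕ) × ℕ => ((lstep p.1)^[p.2] (linit p.1)).1) :=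
    fst.comp (Primrec.nat_iterate snd (primrec_linit.comp fst)
      (primrec_lstep.comp (fst.comp fst) snd))
  have h2 : Primrec (fun p : (Machine × List ℕ) × ℕ => p.1.1.2.1) :=
    fst.comp (snd.comp (fst.comp fst))
  have h3 : PrimrecRel (fun (L : List ℕ) (b : ℕ) => ∃ a ∈ L, a = b) :=
    PrimrecRel.exists_mem_list Primrec.eq
  have h4 : PrimrecRel (fun (L : List ℕ) (b : ℕ) => b ∈ L) :=
    h3.of_eq fun L b => by simp
  exact (h4.comp h2 h1).decide

lemma primrec_firstHalt : Primrec₂ firstHalt := by
  unfold firstHalt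
  exact Primrec.list_findIdx (list_range.comp (nat_add.comp snd (Primrec.const 1)))
    (primrec_haltAt.comp (fst.comp fst) snd)

lemma primrec_lahRow : Primrec lahRow := by
  refine Primrec.nat_rec₁ [1] (f := fun n l => (List.range (n + 2)).map
    (fun j => (n + j) * l.getD j 0 + (if j = 0 then 0 else l.getD (j - 1) 0))) ?_
  refine Primrec.list_map (f := fun p : ℕ × List ℕ => List.range (p.1 + 2))
    (g := fun p j => (p.1 + j) * p.2.getD j 0 + (if j = 0 then 0 else p.2.getD (j - 1) 0)) ?_ ?_
  · exact list_range.comp (nat_add.comp fst (Primrec.const 2))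
  · exact nat_add.comp (nat_mul.comp (nat_add.comp (fst.comp fst) snd)
      ((list_getD 0).comp (snd.comp fst) snd))
      (Primrec.ite (Primrec.eq.comp snd (Primrec.const 0)) (Primrec.const 0)
        ((list_getD 0).comp (snd.comp fst) (nat_sub.comp snd (Primrec.const 1))))

lemma primrec_lah : Primrec₂ lah := (list_getD 0).comp (primrec_lahRow.comp fst) snd

end Vale.Agent.H12.P113
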