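import Mathlib

set_option autoImplicit false

/-!
Definitions for P113: forced incompressible Navier-Stokes flows on the flat torus, started from
rest, whose particle trajectories detect halting of Turing machines.
-/

namespace Vale.Agent.H12.P113

open Set

/-! ### The torus and classical solutions -/

/-- Vectors of `ℝ³`. -/
abbrev E3 := Fin 3 → ℝ

/-- The flat torus `(ℝ/ℤ)³`. -/
abbrev Torus3 := Fin 3 → UnitAddCircle

/-- The covering projection `ℝ³ → (ℝ/ℤ)³`. -/
def toTorus (x : E3) : Torus3 := fun i => (x i : UnitAddCircle)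

/-- `ℤ³`-periodicity: functions on the torus are the periodic functions on `ℝ³`. -/
def SpacePeriodic (g : E3 → ℝ) : Prop :=
  ∀ (x : E3) (j : Fin 3), g (x + Pi.single j 1) = g x

/-- The partial derivative `∂g/∂x_j` of a scalar function on `ℝ³`. -/
noncomputable def pd (j : Fin 3) (g : E3 → ℝ) (x : E3) : ℝ :=
  deriv (fun s : ℝ => g (Function.update x j s)) (x j)

/-- `g` is of class `C^n` on `ℝ³`. -/
def IsCn (n : ℕ) (g : E3 → ℝ) : Prop := ContDiff ℝ n g

/-- `g` is continuous on `[0, T] × ℝ³`. -/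
def IsCont (T : ℝ) (g : ℝ → E3 → ℝ) : Prop :=
  ContinuousOn (fun z : ℝ × E3 => g z.1 z.2) (Icc 0 T ×ˢ univ)

/-- `g` is a `C^∞` function of `(t, x)`. -/
def IsSmooth (g : ℝ → E3 → ℝ) : Prop :=
  ContDiff ℝ (⊤ : ℕ∞) (fun z : ℝ × E3 => g z.1 z.2)

/-- `(u, p)` is a classical solution on `[0, T] × 𝕋³` of
`∂ₜu + (u·∇)u = -∇p + νΔu + f`, `div u = 0`, `u(0,·) = 0`:
`u`, `∂ₜu`, the spatial derivatives of `u` up to order two, `p` and `∇p` are continuous on
`[0, T] × 𝕋³`, `p` has spatial mean zero, and the equations hold pointwise.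
(Time derivatives at the end points of `[0, T]` are one-sided.) -/
structure IsClassicalSolution (ν : ℝ) (f : ℝ → E3 → E3) (T : ℝ)
    (u : ℝ → E3 → E3) (p : ℝ → E3 → ℝ) : Prop where
  u_periodic : ∀ i, ∀ t ∈ Icc 0 T, SpacePeriodic (fun x => u t x i)
  p_periodic : ∀ t ∈ Icc 0 T, SpacePeriodic (p t)
  u_C2 : ∀ i, ∀ t ∈ Icc 0 T, IsCn 2 (fun x => u t x i)
  p_C1 : ∀ t ∈ Icc 0 T, IsCn 1 (p t)
  u_diff : ∀ i, ∀ t ∈ Icc 0 T, ∀ x,
    DifferentiableWithinAt ℝ (fun s => u s x i) (Icc 0 T) t
  u_cont : ∀ i, IsCont T (fun t x => u t x i)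
  ut_cont : ∀ i, IsCont T (fun t x => derivWithin (fun s => u s x i) (Icc 0 T) t)
  du_cont : ∀ i j, IsCont T (fun t x => pd j (fun y => u t y i) x)
  ddu_cont : ∀ i j k, IsCont T (fun t x => pd k (pd j (fun y => u t y i)) x)
  p_cont : IsCont T p
  dp_cont : ∀ j, IsCont T (fun t x => pd j (p t) x)
  p_mean : ∀ t ∈ Icc 0 T, ∫ x in Icc (0 : E3) 1, p t x = 0
  initial : ∀ x i, u 0 x i = 0
  div_free : ∀ t ∈ Icc 0 T, ∀ x, ∑ i, pd i (fun y => u t y i) x = 0
  momentum : ∀ t ∈ Icc 0 T, ∀ x i,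
    derivWithin (fun s => u s x i) (Icc 0 T) t + ∑ j, u t x j * pd j (fun y => u t y i) x
      = - pd i (p t) x + ν * ∑ j, pd j (pd j (fun y => u t y i)) x + f t x i

/-- A global smooth solution: `u` and `p` are (restrictions to `t ≥ 0` of) `C^∞` functions of
`(t, x)`, and they form a classical solution on every `[0, T]`. -/
def IsGlobalSmoothSolution (ν : ℝ) (f : ℝ → E3 → E3) (u : ℝ → E3 → E3) (p : ℝ → E3 → ℝ) :
    Prop :=
  (∀ i, IsSmooth (fun t x => u t x i)) ∧ IsSmooth p ∧ ∀ T > 0, IsClassicalSolution ν f T u p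

/-- `X` is (a lift to `ℝ³` of) the trajectory of the point `a` of the torus:
`X'(t) = u(t, X(t))` for `t ≥ 0`, and `X(0)` projects to `a`. -/
def IsTrajectory (u : ℝ → E3 → E3) (a : Torus3) (X : ℝ → E3) : Prop :=
  toTorus (X 0) = a ∧ ∀ t ≥ 0, ∀ i, HasDerivWithinAt (fun s => X s i) (u t (X t) i) (Ici 0) t

/-! ### Turing machines -/

/-- A deterministic one-tape Turing machine `(start state, halting states, rules)`.
States and symbols are natural numbers, the blank is `0`; only finitely many states and symbols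
occur in the finite list of rules.  A rule `((q, a), (q', b, d))` says: in state `q` reading `a`,
go to state `q'`, write `b` and move the head by `d - 1 ∈ {-1, 0, 1}`.
The first rule that fits is applied. -/
abbrev Machine := ℕ × List ℕ × List ((ℕ × ℕ) × (ℕ × ℕ × Fin 3))

/-- A configuration: state, head position, contents of the two-sided tape. -/
structure Cfg where
  state : ℕ
  pos : ℤ
  tape : ℤ → ℕ

/-- The initial configuration: the word `w` on the cells `0, 1, …` of an otherwise blank tape,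
the head at its first cell. -/
def Cfg.init (M : Machine) (w : List ℕ) : Cfg where
  state := M.1
  pos := 0
  tape := fun z => if 0 ≤ z then w.getD z.toNat 0 else 0

/-- One step (a configuration to which no rule applies is repeated forever). -/
def Cfg.step (M : Machine) (c : Cfg) : Cfg :=
  (M.2.2.lookup (c.state, c.tape c.pos)).elim c fun r =>
    ⟨r.1, c.pos + ((r.2.2 : ℕ) : ℤ) - 1, Function.update c.tape c.pos r.2.1⟩

/-- `M` halts on `w`: it reaches a halting state after finitely many steps, possibly none. -/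
def Halts (M : Machine) (w : List ℕ) : Prop :=
  ∃ n : ℕ, ((Cfg.step M)^[n] (Cfg.init M w)).state ∈ M.2.1

/-! ### Effective forces and force compilers -/

/-- Names of rational numbers: `(a, b, d)` stands for `(a - b) / (d + 1)`. -/
abbrev RatName := ℕ × ℕ × ℕ

/-- The rational number named by `(a, b, d)`, as a real number. -/
noncomputable def RatName.val (r : RatName) : ℝ := ((r.1 : ℝ) - (r.2.1 : ℝ)) / ((r.2.2 : ℝ) + 1)

/-- The mixed derivative `∂ₜ^α₀ ∂₀^α₁ ∂₁^α₂ ∂₂^α₃ g`. -/
noncomputable def mixed (α : ℕ × ℕ × ℕ × ℕ) (g : ℝ → E3 → ℝ) : ℝ → E3 → ℝ :=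
  (fun h : ℝ → E3 → ℝ => fun t x => deriv (fun s => h s x) t)^[α.1]
    ((fun h : ℝ → E3 → ℝ => fun t => pd 0 (h t))^[α.2.1]
      ((fun h : ℝ → E3 → ℝ => fun t => pd 1 (h t))^[α.2.2.1]
        ((fun h : ℝ → E3 → ℝ => fun t => pd 2 (h t))^[α.2.2.2] g)))

/-- The program `c` computes all mixed derivatives of the force `f` at rational points to any
prescribed accuracy: given a component `i`, a multi-index `α`, (names of) rational
`t ≥ 0`, `x₀`, `x₁`, `x₂`, and `k`, it returns a rational number within `1 / (k + 1)` of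
`∂^α f_i (t, x)`. -/
def IsProgramFor (c : Nat.Partrec.Code) (f : ℝ → E3 → E3) : Prop :=
  ∀ (i : Fin 3) (α : ℕ × ℕ × ℕ × ℕ) (t x₀ x₁ x₂ : RatName) (k : ℕ), 0 ≤ t.val →
    ∃ r : RatName, Encodable.encode r ∈ c.eval (Encodable.encode (i, α, (t, x₀, x₁, x₂), k)) ∧
      |mixed α (fun s y => f s y i) t.val ![x₀.val, x₁.val, x₂.val] - r.val| ≤ 1 / ((k : ℝ) + 1)

/-- `compile` is a force compiler producing the forces `f M w`: it is an algorithm which on every
pair `(M, w)` outputs a program for the smooth effective force `f M w` on the torus, and there is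
a time `T₀` independent of `(M, w)` such that the restriction of `f M w` to `t ≥ T₀` is periodic
in time and depends on `M` only. -/
def IsForceCompiler (compile : Machine × List ℕ → Nat.Partrec.Code)
    (f : Machine → List ℕ → ℝ → E3 → E3) : Prop :=
  Computable compile ∧
  (∀ M w, (∀ i, IsSmooth (fun t x => f M w t x i)) ∧
    (∀ i t, SpacePeriodic (fun x => f M w t x i)) ∧ IsProgramFor (compile (M, w)) (f M w)) ∧
  ∃ T₀ : ℝ, 0 ≤ T₀ ∧ ∀ M, ∃ g : ℝ → E3 → E3, ∃ P > 0,
    (∀ t ≥ T₀, ∀ x, g (t + P) x = g t x) ∧ ∀ w, ∀ t ≥ T₀, ∀ x, f M w t x = g t x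

end Vale.Agent.H12.P113
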