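import Vale.Agent.H12.P113.Sol

set_option autoImplicit false

/-! Explicit derivatives of the time profile (Lah numbers) and mixed derivatives of the force. -/

namespace Vale.Agent.H12.P113

open Set Filter Topology Finset

/-- Rows of (signless) Lah numbers. -/
def lahRow : ℕ → List ℕ := fun n => Nat.rec [1] (fun n l =>
  (List.range (n + 2)).map (fun j => (n + j) * l.getD j 0 + (if j = 0 then 0 else l.getD (j - 1) 0))) n

/-- (Signless) Lah numbers. -/
def lah (n j : ℕ) : ℕ := (lahRow n).getD j 0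

lemma lahRow_succ (n : ℕ) : lahRow (n + 1) = (List.range (n + 2)).map
    (fun j => (n + j) * (lahRow n).getD j 0 + (if j = 0 then 0 else (lahRow n).getD (j - 1) 0)) :=
  rfl

lemma lahRow_length (n : ℕ) : (lahRow n).length = n + 1 := by
  cases n with
  | zero => rfl
  | succ n => rw [lahRow_succ]; simp

lemma lah_zero_zero : lah 0 0 = 1 := rfl

lemma lah_of_lt {n j : ℕ} (h : n < j) : lah n j = 0 := by
  unfold lah
  rw [List.getD_eq_default]
  rw [lahRow_length]
  omega

lemma lah_succ_zero (n : ℕ) : lah (n + 1) 0 = n * lah n 0 := by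
  unfold lah
  rw [lahRow_succ, List.getD_eq_getElem _ _ (by simp)]
  simp

lemma lah_succ_succ {n j : ℕ} (h : j ≤ n) :
    lah (n + 1) (j + 1) = (n + j + 1) * lah n (j + 1) + lah n j := by
  unfold lah
  rw [lahRow_succ, List.getD_eq_getElem _ _ (by simp; omega)]
  simp
  left
  ring

/-- The `n`-th derivative of `prof`. -/
noncomputable def Gd (n : ℕ) (t : ℝ) : ℝ :=
  ∑ j ∈ range (n + 1), (-1 : ℝ) ^ j * lah n j * (((1 - t)⁻¹) ^ (n + j) * expNegInvGlue (1 - t))

lemma Gd_zero : Gd 0 = prof := by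
  funext t
  simp [Gd, prof, lah_zero_zero]

lemma mono_deriv (k : ℕ) (t : ℝ) :
    HasDerivAt (fun t : ℝ => ((1 - t)⁻¹) ^ k * expNegInvGlue (1 - t))
      ((k : ℝ) * (((1 - t)⁻¹) ^ (k + 1) * expNegInvGlue (1 - t))
        - ((1 - t)⁻¹) ^ (k + 2) * expNegInvGlue (1 - t)) t := by
  have h1 := expNegInvGlue.hasDerivAt_polynomial_eval_inv_mul (Polynomial.X ^ k) (1 - t)
  have h2 : HasDerivAt (fun t : ℝ => 1 - t) (-1) t := by
    simpa using (hasDerivAt_id t).const_sub 1
  have h3 := h1.comp t h2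
  have h4 : (fun t : ℝ => ((1 - t)⁻¹) ^ k * expNegInvGlue (1 - t))
      = (fun x : ℝ => (Polynomial.X ^ k : Polynomial ℝ).eval x⁻¹ * expNegInvGlue x)
        ∘ (fun t => 1 - t) := by
    funext t
    simp
  rw [h4]
  refine h3.congr_deriv ?_
  generalize (1 - t)⁻¹ = y
  generalize expNegInvGlue (1 - t) = E
  simp only [Polynomial.eval_mul, Polynomial.eval_pow, Polynomial.eval_X, Polynomial.eval_sub,
    Polynomial.derivative_X_pow, Polynomial.eval_natCast, Polynomial.C_eq_natCast]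
  cases k with
  | zero => simp
  | succ k => simp; ring

lemma Gd_hasDeriv (n : ℕ) (t : ℝ) : HasDerivAt (Gd n) (Gd (n + 1) t) t := by
  have h1 : HasDerivAt (Gd n) (∑ j ∈ range (n + 1), (-1 : ℝ) ^ j * lah n j *
      (((n + j : ℕ) : ℝ) * (((1 - t)⁻¹) ^ (n + j + 1) * expNegInvGlue (1 - t))
        - ((1 - t)⁻¹) ^ (n + j + 2) * expNegInvGlue (1 - t))) t := by
    unfold Gd
    exact HasDerivAt.fun_sum fun j _ => (mono_deriv (n + j) t).const_mul _
  refine h1.congr_deriv ?_
  set y := (1 - t)⁻¹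
  set E := expNegInvGlue (1 - t)
  have hR : Gd (n + 1) t = ((n : ℝ) * lah n 0) * (y ^ (n + 1) * E)
      + ∑ j ∈ range (n + 1), (-1 : ℝ) ^ (j + 1) * (((n : ℝ) + j + 1) * lah n (j + 1) + lah n j)
        * (y ^ (n + 1 + (j + 1)) * E) := by
    unfold Gd
    rw [Finset.sum_range_succ']
    rw [add_comm]
    congr 1
    · simp [lah_succ_zero, y, E]
    · refine Finset.sum_congr rfl fun j hj => ?_
      rw [lah_succ_succ (by have := Finset.mem_range.1 hj; omega)]
      push_cast
      rfl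
  rw [hR]
  have hS : ∑ j ∈ range (n + 1), (-1 : ℝ) ^ (j + 1) * (((n : ℝ) + j + 1) * lah n (j + 1))
        * (y ^ (n + 1 + (j + 1)) * E)
      = ∑ j ∈ range n, (-1 : ℝ) ^ (j + 1) * (((n : ℝ) + j + 1) * lah n (j + 1))
        * (y ^ (n + 1 + (j + 1)) * E) := by
    rw [Finset.sum_range_succ, lah_of_lt (Nat.lt_succ_self n)]
    simp
  have hL : ∑ j ∈ range (n + 1), (-1 : ℝ) ^ j * lah n j * (((n + j : ℕ) : ℝ) * (y ^ (n + j + 1) * E))
      = ((n : ℝ) * lah n 0) * (y ^ (n + 1) * E) +
        ∑ j ∈ range n, (-1 : ℝ) ^ (j + 1) * (((n : ℝ) + j + 1) * lah n (j + 1))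
        * (y ^ (n + 1 + (j + 1)) * E) := by
    rw [Finset.sum_range_succ', add_comm]
    congr 1
    · simp; ring
    · refine Finset.sum_congr rfl fun j _ => ?_
      push_cast
      ring
  have hsplit1 : ∑ j ∈ range (n + 1), (-1 : ℝ) ^ j * lah n j *
      (((n + j : ℕ) : ℝ) * (y ^ (n + j + 1) * E) - y ^ (n + j + 2) * E)
      = ∑ j ∈ range (n + 1), (-1 : ℝ) ^ j * lah n j * (((n + j : ℕ) : ℝ) * (y ^ (n + j + 1) * E))
        + ∑ j ∈ range (n + 1), (-1 : ℝ) ^ (j + 1) * lah n j * (y ^ (n + 1 + (j + 1)) * E) := by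
    rw [← Finset.sum_add_distrib]
    refine Finset.sum_congr rfl fun j _ => ?_
    ring
  have hsplit2 : ∑ j ∈ range (n + 1), (-1 : ℝ) ^ (j + 1) *
        (((n : ℝ) + j + 1) * lah n (j + 1) + lah n j) * (y ^ (n + 1 + (j + 1)) * E)
      = ∑ j ∈ range (n + 1), (-1 : ℝ) ^ (j + 1) * (((n : ℝ) + j + 1) * lah n (j + 1))
          * (y ^ (n + 1 + (j + 1)) * E)
        + ∑ j ∈ range (n + 1), (-1 : ℝ) ^ (j + 1) * lah n j * (y ^ (n + 1 + (j + 1)) * E) := by
    rw [← Finset.sum_add_distrib]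
    refine Finset.sum_congr rfl fun j _ => ?_
    ring
  rw [hsplit1, hsplit2, hL, hS]
  ring

/-! mixed derivatives of functions of time only -/

lemma pd_iter (j : Fin 3) (m : ℕ) (φ : ℝ → ℝ) :
    ((fun h : ℝ → E3 → ℝ => fun t => pd j (h t))^[m] (fun t _ => φ t))
      = fun t _ => if m = 0 then φ t else 0 := by
  induction m generalizing φ with
  | zero => simp
  | succ m ih =>
    rw [Function.iterate_succ_apply]
    have h1 : (fun t : ℝ => pd j ((fun (t : ℝ) (_ : E3) => φ t) t)) = fun _ _ => (0 : ℝ) := by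
      funext t x
      exact pd_const j _ x
    rw [h1]
    have h2 := ih (fun _ => 0)
    rw [h2]
    simp

lemma dt_iter (κ : ℝ) (n m : ℕ) :
    ((fun h : ℝ → E3 → ℝ => fun t x => deriv (fun s => h s x) t)^[n] (fun t _ => κ * Gd m t))
      = fun t _ => κ * Gd (m + n) t := by
  induction n generalizing m with
  | zero => simp
  | succ n ih =>
    rw [Function.iterate_succ_apply]
    have h1 : (fun (t : ℝ) (x : E3) => deriv (fun s => (fun (t : ℝ) (_ : E3) => κ * Gd m t) s x) t)
        = fun t _ => κ * Gd (m + 1) t := by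
      funext t x
      exact ((Gd_hasDeriv m t).const_mul κ).deriv
    rw [h1, ih]
    have h2 : m + 1 + n = m + (n + 1) := by ring
    rw [h2]

lemma mixed_force_two (κ : ℝ) (α : ℕ × ℕ × ℕ × ℕ) (t : ℝ) (x : E3) :
    mixed α (fun s y => force κ s y 2) t x
      = if α.2 = (0, 0, 0) then κ * Gd α.1 t else 0 := by
  obtain ⟨a, b, c, d⟩ := α
  have h0 : (fun s (y : E3) => force κ s y 2) = fun s _ => κ * Gd 0 s := by
    funext s y
    simp [force, Gd_zero]
  have hz : (fun h : ℝ → E3 → ℝ => fun t x => deriv (fun s => h s x) t)^[a]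
      (fun _ _ => (0 : ℝ)) = fun _ _ => 0 := by
    have := dt_iter 0 a 0
    simpa using this
  rw [h0]
  simp only [mixed]
  rw [pd_iter 2 d (fun t => κ * Gd 0 t)]
  by_cases hd : d = 0
  · subst hd
    simp only [if_true]
    rw [pd_iter 1 c (fun t => κ * Gd 0 t)]
    by_cases hc : c = 0
    · subst hc
      simp only [if_true]
      rw [pd_iter 0 b (fun t => κ * Gd 0 t)]
      by_cases hb : b = 0
      · subst hb
        simp only [if_true]
        rw [dt_iter]
        simp
      · simp only [hb, if_false]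
        rw [hz]
        simp [hb]
    · simp only [hc, if_false]
      rw [pd_iter 0 b (fun _ => 0)]
      simp only [ite_self]
      rw [hz]
      simp [hc]
  · simp only [hd, if_false]
    rw [pd_iter 1 c (fun _ => 0)]
    simp only [ite_self]
    rw [pd_iter 0 b (fun _ => 0)]
    simp only [ite_self]
    rw [hz]
    simp [hd]

lemma mixed_force_ne (κ : ℝ) {i : Fin 3} (hi : i ≠ 2) (α : ℕ × ℕ × ℕ × ℕ) (t : ℝ) (x : E3) :
    mixed α (fun s y => force κ s y i) t x = 0 := by
  have h0 : (fun s (y : E3) => force κ s y i) = fun s y => force 0 s y 2 := by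
    funext s y
    simp [force, Pi.single_eq_of_ne hi]
  rw [h0, mixed_force_two]
  simp

end Vale.Agent.H12.P113
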