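import Vale.Agent.H12.P113.Spec

set_option autoImplicit false

namespace Vale.Agent.H12.P113

open Set

theorem main :
    ∀ ν : ℝ, 0 < ν →
      ∃ (a : Torus3) (O : Set Torus3) (compile : Machine × List ℕ → Nat.Partrec.Code)
        (f : Machine → List ℕ → ℝ → E3 → E3),
        IsOpen O ∧ IsForceCompiler compile f ∧
        ∀ (M : Machine) (w : List ℕ), ∃ (u : ℝ → E3 → E3) (p : ℝ → E3 → ℝ),
          IsGlobalSmoothSolution ν (f M w) u p ∧
          (∀ T > 0, ∀ v q, IsClassicalSolution ν (f M w) T v q →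
            ∀ t ∈ Icc 0 T, v t = u t ∧ q t = p t) ∧
          (∃ X, IsTrajectory u a X) ∧
          ∀ X, IsTrajectory u a X → ((∃ t, 0 ≤ t ∧ toTorus (X t) ∈ O) ↔ Halts M w) := by
  intro ν hν
  obtain ⟨compile, hcomp, hans⟩ := exists_compiler
  refine ⟨toTorus 0, obs, compile, fun M w => force (kappa M w), obs_open, ⟨hcomp, ?_, ?_⟩, ?_⟩
  · intro M w
    refine ⟨fun i => force_contDiff _ i, fun i t x j => rfl, ?_⟩
    intro i α t x₀ x₁ x₂ k _
    exact ⟨answer ((M, w), (i, α, (t, x₀, x₁, x₂), k)), hans (M, w) _,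
      answer_spec M w i α t x₀ x₁ x₂ k⟩
  · refine ⟨1, zero_le_one, fun M => ⟨fun _ _ => 0, 1, one_pos, fun _ _ _ => rfl, ?_⟩⟩
    intro w t ht x
    simp [force, prof_zero ht]
  · intro M w
    refine ⟨vel (kappa M w), fun _ _ => 0, vel_solution ν _, vel_unique hν _,
      ⟨_, exists_trajectory _⟩, ?_⟩
    intro X hX
    rw [enters_iff (kappa_nonneg M w) (kappa_le_one M w) hX, kappa_pos_iff]

end Vale.Agent.H12.P113
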