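import Vale.Agent.H12.P113.Comp

set_option autoImplicit false

/-! The program approximating the mixed derivatives, and its correctness. -/

namespace Vale.Agent.H12.P113

open Primrec

/-! ### Approximation of the exponential -/

lemma exp_approx {y : ℝ} (hy : 0 < y) {N : ℕ} (hN : y ≤ N) :
    |Real.exp (-y) - (1 - y / N) ^ N| ≤ y ^ 2 / N := by
  have hN0 : (0 : ℝ) < N := lt_of_lt_of_le hy hN
  have hup : (1 - y / N) ^ N ≤ Real.exp (-y) := Real.one_sub_div_pow_le_exp_neg hN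
  set z : ℝ := y / N with hz
  have hz0 : 0 ≤ z := by positivity
  have hz1 : z ≤ 1 := by rw [hz, div_le_one hN0]; exact hN
  have hzz : z ^ 2 ≤ 1 := by nlinarith
  have h1 : Real.exp (-z) * (1 - z ^ 2) ≤ 1 - z := by
    have he : Real.exp (-z) * (1 + z) ≤ 1 := by
      have h2 : 1 + z ≤ Real.exp z := by linarith [Real.add_one_le_exp z]
      calc Real.exp (-z) * (1 + z) ≤ Real.exp (-z) * Real.exp z :=
            mul_le_mul_of_nonneg_left h2 (Real.exp_pos _).le
        _ = 1 := by rw [← Real.exp_add]; simp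
    have : Real.exp (-z) * (1 - z ^ 2) = (Real.exp (-z) * (1 + z)) * (1 - z) := by ring
    rw [this]
    calc (Real.exp (-z) * (1 + z)) * (1 - z) ≤ 1 * (1 - z) :=
          mul_le_mul_of_nonneg_right he (by linarith)
      _ = 1 - z := one_mul _
  have h2 : (Real.exp (-z) * (1 - z ^ 2)) ^ N ≤ (1 - z) ^ N :=
    pow_le_pow_left₀ (mul_nonneg (Real.exp_pos _).le (by linarith)) h1 N
  have h3 : (Real.exp (-z)) ^ N = Real.exp (-y) := by
    rw [← Real.exp_nat_mul]
    congr 1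
    rw [hz]
    field_simp
  have h4 : 1 - y ^ 2 / N ≤ (1 - z ^ 2) ^ N := by
    have := one_add_mul_le_pow (a := -z ^ 2) (by linarith) N
    have e : (1 : ℝ) + N * -z ^ 2 = 1 - y ^ 2 / N := by
      rw [hz]
      field_simp
      ring
    rw [e] at this
    calc 1 - y ^ 2 / N ≤ (1 + -z ^ 2) ^ N := this
      _ = (1 - z ^ 2) ^ N := by ring
  rw [mul_pow, h3] at h2
  have h5 : Real.exp (-y) * (1 - y ^ 2 / N) ≤ (1 - z) ^ N :=
    (mul_le_mul_of_nonneg_left h4 (Real.exp_pos _).le).trans h2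
  have h6 : Real.exp (-y) ≤ 1 := by rw [Real.exp_le_one_iff]; linarith
  have h7 : Real.exp (-y) * (y ^ 2 / N) ≤ 1 * (y ^ 2 / N) :=
    mul_le_mul_of_nonneg_right h6 (by positivity)
  rw [abs_of_nonneg (by linarith)]
  nlinarith

/-! ### The numeric core -/

/-- terms -/
def term (n d m j : ℕ) : ℕ := lah n j * (d + 1) ^ (n + j) * m ^ (n - j)

/-- even part -/
def npos (n d m : ℕ) : ℕ := ∑ j ∈ Finset.range (n + 1), if j % 2 = 0 then term n d m j else 0

/-- odd part -/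
def nneg (n d m : ℕ) : ℕ := ∑ j ∈ Finset.range (n + 1), if j % 2 = 0 then 0 else term n d m j

/-- inputs of the core: machine and word, order `n`, time name, accuracy -/
abbrev Inp := (Machine × List ℕ) × (ℕ × RatName × ℕ)

/-- `m = d + 1 + b - a` -/
def qm (q : Inp) : ℕ := (q.2.2.1.2.2 + 1 + q.2.2.1.2.1) - q.2.2.1.1
/-- even part -/
def qp (q : Inp) : ℕ := npos q.2.1 q.2.2.1.2.2 (qm q)
/-- odd part -/
def qn (q : Inp) : ℕ := nneg q.2.1 q.2.2.1.2.2 (qm q)
/-- simulation time -/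
def qK (q : Inp) : ℕ := (qp q + qn q + 1) * (q.2.2.2 + 1)
/-- first halting time -/
def qs (q : Inp) : ℕ := firstHalt q.1 (qK q)
/-- exponent -/
def qN (q : Inp) : ℕ := qK q * (q.2.2.1.2.2 + 1) ^ 2
/-- numerator of the exponential -/
def qP (q : Inp) : ℕ := (qN q * qm q - (q.2.2.1.2.2 + 1)) ^ qN q
/-- denominator of the exponential -/
def qD (q : Inp) : ℕ := (qN q * qm q) ^ qN q

/-- the core -/
def core (q : Inp) : RatName :=
  if 0 < qm q ∧ qs q ≤ qK q then
    (qp q * qP q, qn q * qP q, qm q ^ (2 * q.2.1) * qD q * (qs q + 1) - 1)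
  else (0, 0, 0)

lemma primrec_term : Primrec (fun p : (ℕ × ℕ × ℕ) × ℕ => term p.1.1 p.1.2.1 p.1.2.2 p.2) := by
  have hn : Primrec (fun p : (ℕ × ℕ × ℕ) × ℕ => p.1.1) := fst.comp fst
  have hd : Primrec (fun p : (ℕ × ℕ × ℕ) × ℕ => p.1.2.1) := fst.comp (snd.comp fst)
  have hm : Primrec (fun p : (ℕ × ℕ × ℕ) × ℕ => p.1.2.2) := snd.comp (snd.comp fst)
  have hj : Primrec (fun p : (ℕ × ℕ × ℕ) × ℕ => p.2) := snd
  unfold term
  exact nat_mul.comp (nat_mul.comp (primrec_lah.comp hn hj)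
    (primrec_pow.comp (nat_add.comp hd (Primrec.const 1)) (nat_add.comp hn hj)))
    (primrec_pow.comp hm (nat_sub.comp hn hj))

lemma primrec_npos : Primrec (fun p : ℕ × ℕ × ℕ => npos p.1 p.2.1 p.2.2) := by
  unfold npos
  refine primrec_sum (g := fun (p : ℕ × ℕ × ℕ) j => if j % 2 = 0 then term p.1 p.2.1 p.2.2 j else 0)
    (nat_add.comp fst (Primrec.const 1)) ?_
  exact Primrec.ite (Primrec.eq.comp (nat_mod.comp snd (Primrec.const 2)) (Primrec.const 0))
    primrec_term (Primrec.const 0)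

lemma primrec_nneg : Primrec (fun p : ℕ × ℕ × ℕ => nneg p.1 p.2.1 p.2.2) := by
  unfold nneg
  refine primrec_sum (g := fun (p : ℕ × ℕ × ℕ) j => if j % 2 = 0 then 0 else term p.1 p.2.1 p.2.2 j)
    (nat_add.comp fst (Primrec.const 1)) ?_
  exact Primrec.ite (Primrec.eq.comp (nat_mod.comp snd (Primrec.const 2)) (Primrec.const 0))
    (Primrec.const 0) primrec_term

lemma pr_n : Primrec (fun q : Inp => q.2.1) := fst.comp snd
lemma pr_a : Primrec (fun q : Inp => q.2.2.1.1) := fst.comp (fst.comp (snd.comp snd))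
lemma pr_b : Primrec (fun q : Inp => q.2.2.1.2.1) := fst.comp (snd.comp (fst.comp (snd.comp snd)))
lemma pr_d : Primrec (fun q : Inp => q.2.2.1.2.2) := snd.comp (snd.comp (fst.comp (snd.comp snd)))
lemma pr_k : Primrec (fun q : Inp => q.2.2.2) := snd.comp (snd.comp snd)
lemma pr_d1 : Primrec (fun q : Inp => q.2.2.1.2.2 + 1) := nat_add.comp pr_d (Primrec.const 1)
lemma pr_qm : Primrec qm := nat_sub.comp (nat_add.comp pr_d1 pr_b) pr_a
lemma pr_trip : Primrec (fun q : Inp => (q.2.1, q.2.2.1.2.2, qm q)) :=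
  pr_n.pair (pr_d.pair pr_qm)
lemma pr_qp : Primrec qp :=
  (Primrec.comp (f := fun p : ℕ × ℕ × ℕ => npos p.1 p.2.1 p.2.2)
    (g := fun q : Inp => (q.2.1, q.2.2.1.2.2, qm q)) primrec_npos pr_trip).of_eq fun _ => rfl
lemma pr_qn : Primrec qn :=
  (Primrec.comp (f := fun p : ℕ × ℕ × ℕ => nneg p.1 p.2.1 p.2.2)
    (g := fun q : Inp => (q.2.1, q.2.2.1.2.2, qm q)) primrec_nneg pr_trip).of_eq fun _ => rfl
lemma pr_qK : Primrec qK :=
  nat_mul.comp (nat_add.comp (nat_add.comp pr_qp pr_qn) (Primrec.const 1))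
    (nat_add.comp pr_k (Primrec.const 1))
lemma pr_qs : Primrec qs := primrec_firstHalt.comp fst pr_qK
lemma pr_qN : Primrec qN := nat_mul.comp pr_qK (primrec_pow.comp pr_d1 (Primrec.const 2))
lemma pr_qP : Primrec qP :=
  primrec_pow.comp (nat_sub.comp (nat_mul.comp pr_qN pr_qm) pr_d1) pr_qN
lemma pr_qD : Primrec qD := primrec_pow.comp (nat_mul.comp pr_qN pr_qm) pr_qN

lemma primrec_core : Primrec core := by
  unfold core
  refine Primrec.ite (PrimrecPred.and (nat_lt.comp (Primrec.const 0) pr_qm)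
    (nat_le.comp pr_qs pr_qK)) ?_ (Primrec.const (0, 0, 0))
  refine (nat_mul.comp pr_qp pr_qP).pair ((nat_mul.comp pr_qn pr_qP).pair ?_)
  exact nat_sub.comp (nat_mul.comp (nat_mul.comp
    (primrec_pow.comp pr_qm (nat_mul.comp (Primrec.const 2) pr_n)) pr_qD)
    (nat_add.comp pr_qs (Primrec.const 1))) (Primrec.const 1)

end Vale.Agent.H12.P113
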