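import Vale.Agent.H12.P113.Defs

set_option autoImplicit false

/-! Uniqueness of classical solutions for spatially constant forces, by the energy identity. -/

namespace Vale.Agent.H12.P113

open Set MeasureTheory

/-! ### Partial derivatives -/

lemma pd_const (j : Fin 3) (c : ℝ) (x : E3) : pd j (fun _ => c) x = 0 := by
  simp [pd]

lemma pd_eq {g : E3 → ℝ} {x : E3} (j : Fin 3) (hg : DifferentiableAt ℝ g x) :
    pd j g x = fderiv ℝ g x (Pi.single j 1) := by
  have h1 : HasDerivAt (fun s : ℝ => Function.update x j s) (Pi.single j (1 : ℝ)) (x j) :=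
    hasDerivAt_update x j (x j)
  have h2 : HasFDerivAt g (fderiv ℝ g x) (Function.update x j (x j)) := by
    rw [Function.update_eq_self]
    exact hg.hasFDerivAt
  exact (h2.comp_hasDerivAt (x j) h1).deriv

lemma pd_mul {g h : E3 → ℝ} {x : E3} (j : Fin 3) (hg : DifferentiableAt ℝ g x)
    (hh : DifferentiableAt ℝ h x) :
    pd j (fun y => g y * h y) x = pd j g x * h x + g x * pd j h x := by
  rw [pd_eq j hg, pd_eq j hh, pd_eq j (hg.fun_mul hh), fderiv_fun_mul hg hh]
  simp [mul_comm]
  ring

lemma pd_add {g h : E3 → ℝ} {x : E3} (j : Fin 3) (hg : DifferentiableAt ℝ g x)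
    (hh : DifferentiableAt ℝ h x) :
    pd j (fun y => g y + h y) x = pd j g x + pd j h x := by
  rw [pd_eq j hg, pd_eq j hh, pd_eq j (hg.fun_add hh), fderiv_fun_add hg hh]
  simp

lemma pd_sub {g h : E3 → ℝ} {x : E3} (j : Fin 3) (hg : DifferentiableAt ℝ g x)
    (hh : DifferentiableAt ℝ h x) :
    pd j (fun y => g y - h y) x = pd j g x - pd j h x := by
  rw [pd_eq j hg, pd_eq j hh, pd_eq j (hg.fun_sub hh), fderiv_fun_sub hg hh]
  simp

lemma pd_const_mul {g : E3 → ℝ} {x : E3} (j : Fin 3) (c : ℝ) (hg : DifferentiableAt ℝ g x) :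
    pd j (fun y => c * g y) x = c * pd j g x := by
  rw [pd_mul j (differentiableAt_const c) hg, pd_const]; ring

lemma pd_sum {ι : Type*} {s : Finset ι} {g : ι → E3 → ℝ} {x : E3} (j : Fin 3)
    (hg : ∀ i ∈ s, DifferentiableAt ℝ (g i) x) :
    pd j (fun y => ∑ i ∈ s, g i y) x = ∑ i ∈ s, pd j (g i) x := by
  have h1 : DifferentiableAt ℝ (fun y => ∑ i ∈ s, g i y) x := DifferentiableAt.fun_sum hg
  rw [pd_eq j h1, fderiv_fun_sum hg]
  simp only [_root_.sum_apply]
  exact Finset.sum_congr rfl fun i hi => (pd_eq j (hg i hi)).symm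

lemma contDiff_pd {n : ℕ} {g : E3 → ℝ} (hg : ContDiff ℝ (n + 1 : ℕ) g) (j : Fin 3) :
    ContDiff ℝ n (pd j g) := by
  have h1 : ContDiff ℝ n (fderiv ℝ g) := hg.fderiv_right (by norm_cast)
  have h2 : pd j g = fun x => fderiv ℝ g x (Pi.single j 1) :=
    funext fun x => pd_eq j (hg.differentiable (by simp) x)
  rw [h2]
  exact h1.clm_apply contDiff_const

/-- Divergence theorem on the torus. -/
lemma integral_div_eq_zero (F : E3 → E3) (hF : ContDiff ℝ 1 F)
    (hper : ∀ (x : E3) (j : Fin 3), F (x + Pi.single j 1) = F x) :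
    ∫ x in Icc (0 : E3) 1, ∑ i, pd i (fun y => F y i) x = 0 := by
  have hd : ∀ x, DifferentiableAt ℝ F x := fun x => (hF.differentiable (by norm_num)) x
  have hpd : ∀ x i, pd i (fun y => F y i) x = (fderiv ℝ F x (Pi.single i 1)) i := by
    intro x i
    have h1 := (hasFDerivAt_pi'.1 (hd x).hasFDerivAt) i
    rw [pd_eq i h1.differentiableAt, h1.fderiv]
    simp
  have hcont : Continuous (fun x => ∑ i, (fderiv ℝ F x (Pi.single i 1)) i) := by
    have hc : Continuous (fderiv ℝ F) := hF.continuous_fderiv (by norm_num)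
    refine continuous_finsetSum _ fun i _ => ?_
    exact (continuous_apply i).comp (hc.clm_apply continuous_const)
  have key := integral_divergence_of_hasFDerivAt_off_countable (n := 2) (a := (0 : E3)) (b := 1)
    (by intro i; simp) F (fun x => fderiv ℝ F x) ∅ countable_empty hF.continuous.continuousOn
    (fun x _ => (hd x).hasFDerivAt)
    (hcont.continuousOn.integrableOn_compact isCompact_Icc)
  simp only [hpd]
  refine key.trans ?_
  refine Finset.sum_eq_zero fun i _ => ?_
  rw [sub_eq_zero]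
  refine setIntegral_congr_fun measurableSet_Icc fun x _ => ?_
  have hx : (i.insertNth ((1 : E3) i) x : E3) = i.insertNth ((0 : E3) i) x + Pi.single i 1 := by
    funext k
    refine Fin.succAboveCases i ?_ (fun m => ?_) k
    · simp
    · simp [Fin.succAbove_ne]
  show F (i.insertNth ((1 : E3) i) x) i = F (i.insertNth ((0 : E3) i) x) i
  rw [hx, hper]

end Vale.Agent.H12.P113
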