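import Vale.Agent.H12.P113.PDE

set_option autoImplicit false

/-! Uniqueness of classical solutions for spatially constant forces, by the energy identity. -/

namespace Vale.Agent.H12.P113

open Set MeasureTheory

lemma SpacePeriodic.add_int {g : E3 → ℝ} (hg : SpacePeriodic g) (n : Fin 3 → ℤ)
    (x : E3) : g (x + fun i => (n i : ℝ)) = g x := by
  have h1 : ∀ (j : Fin 3) (m : ℤ) (x : E3), g (x + Pi.single j (m : ℝ)) = g x := by
    intro j m x
    have hp : Function.Periodic g (Pi.single j (1 : ℝ)) := fun x => hg x j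
    have := hp.zsmul m x
    rwa [← Pi.single_smul, zsmul_one] at this
  have h2 : (fun i => (n i : ℝ)) = Pi.single (0 : Fin 3) (n 0 : ℝ) + Pi.single (1 : Fin 3) (n 1 : ℝ)
      + Pi.single (2 : Fin 3) (n 2 : ℝ) := by
    funext i
    fin_cases i <;> simp
  rw [h2, ← add_assoc, ← add_assoc, h1, h1, h1]

lemma SpacePeriodic.eq_of_eqOn {g h : E3 → ℝ} (hg : SpacePeriodic g)
    (hh : SpacePeriodic h) (heq : EqOn g h (Icc 0 1)) : g = h := by
  funext x
  have hx : x = (fun i => Int.fract (x i)) + fun i => ((⌊x i⌋ : ℤ) : ℝ) := by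
    funext i
    simp [Int.fract_add_floor]
  have hmem : (fun i => Int.fract (x i)) ∈ Icc (0 : E3) 1 := by
    refine ⟨fun i => Int.fract_nonneg _, fun i => (Int.fract_lt_one _).le⟩
  rw [hx, hg.add_int, hh.add_int]
  exact heq hmem

lemma subset_closure_interior_Icc : Icc (0 : E3) 1 ⊆ closure (interior (Icc (0 : E3) 1)) := by
  have h : Icc (0 : E3) 1 = Set.pi univ fun _ => Icc (0 : ℝ) 1 := by
    rw [← Set.pi_univ_Icc]; rfl
  rw [h, interior_pi_set finite_univ, closure_pi_set]
  intro x hx i hi
  have := hx i hi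
  simp only [interior_Icc]
  rw [closure_Ioo (by norm_num)]
  exact this

/-- The energy identity, pointwise. -/
lemma energy_pointwise {ν : ℝ} {F : E3} {v : E3 → E3} {q : E3 → ℝ} {W : E3} {d : E3 → E3}
    (hv : ContDiff ℝ 2 v) (hq : ContDiff ℝ 1 q)
    (hdiv : ∀ x, ∑ i, pd i (fun y => v y i) x = 0)
    (hmom : ∀ x i, d x i + ∑ j, v x j * pd j (fun y => v y i) x
      = - pd i q x + ν * ∑ j, pd j (pd j (fun y => v y i)) x + F i) (x : E3) :
    ∑ i, (v x i - W i) * (d x i - F i)
      = ∑ j, pd j (fun y => (fun z : E3 => fun j : Fin 3 =>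
          -(1 / 2) * (v z j * ∑ i, (v z i - W i) * (v z i - W i)) - (v z j - W j) * q z
          + ν * ∑ i, (v z i - W i) * pd j (fun y => v y i) z) y j) x
        - ν * ∑ i, ∑ j, (pd j (fun y => v y i) x) ^ 2 := by
  have hvi : ∀ i, ContDiff ℝ 2 (fun y => v y i) := fun i => contDiff_pi.1 hv i
  have hvd : ∀ i, DifferentiableAt ℝ (fun y => v y i) x :=
    fun i => ((hvi i).differentiable (by norm_num)) x
  have hwd : ∀ i, DifferentiableAt ℝ (fun y => v y i - W i) x :=
    fun i => (hvd i).sub (differentiableAt_const _)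
  have hqd : DifferentiableAt ℝ q x := (hq.differentiable (by norm_num)) x
  have hpdd : ∀ i j, DifferentiableAt ℝ (pd j (fun y => v y i)) x := by
    intro i j
    have : ContDiff ℝ (1 : ℕ) (pd j (fun y => v y i)) := contDiff_pd (n := 1) (hvi i) j
    exact (this.differentiable (by norm_num)) x
  have hpw : ∀ i j, pd j (fun y => v y i - W i) x = pd j (fun y => v y i) x := by
    intro i j
    rw [pd_sub j (hvd i) (differentiableAt_const _), pd_const, sub_zero]
  have hS : DifferentiableAt ℝ (fun z => ∑ i, (v z i - W i) * (v z i - W i)) x :=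
    DifferentiableAt.fun_sum fun i _ => (hwd i).mul (hwd i)
  have hT : ∀ j, DifferentiableAt ℝ (fun z => ∑ i, (v z i - W i) * pd j (fun y => v y i) z) x :=
    fun j => DifferentiableAt.fun_sum fun i _ => (hwd i).mul (hpdd i j)
  have hflux : ∀ j, pd j (fun z => -(1 / 2) * (v z j * ∑ i, (v z i - W i) * (v z i - W i))
      - (v z j - W j) * q z + ν * ∑ i, (v z i - W i) * pd j (fun y => v y i) z) x
      = -(1 / 2) * (pd j (fun y => v y j) x * ∑ i, (v x i - W i) * (v x i - W i)
          + v x j * ∑ i, 2 * (v x i - W i) * pd j (fun y => v y i) x)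
        - (pd j (fun y => v y j) x * q x + (v x j - W j) * pd j q x)
        + ν * ∑ i, (pd j (fun y => v y i) x * pd j (fun y => v y i) x
          + (v x i - W i) * pd j (pd j (fun y => v y i)) x) := by
    intro j
    rw [pd_add j, pd_sub j, pd_const_mul j, pd_mul j, pd_sum j, pd_mul j, pd_const_mul j, pd_sum j]
    · simp only [hpw]
      congr 2
      · congr 3
        congr 1
        funext i
        rw [pd_mul j (hwd i) (hwd i), hpw]
        ring
      · refine Finset.sum_congr rfl fun i _ => ?_
        rw [pd_mul j (hwd i) (hpdd i j), hpw]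
    · exact fun i _ => (hwd i).mul (hpdd i j)
    · exact hT j
    · exact hwd j
    · exact hqd
    · exact fun i _ => (hwd i).mul (hwd i)
    · exact hvd j
    · exact hS
    · exact (hvd j).mul hS
    · exact ((hvd j).mul hS).const_mul _
    · exact (hwd j).mul hqd
    · exact (((hvd j).mul hS).const_mul _).sub ((hwd j).mul hqd)
    · exact (hT j).const_mul _
  simp only [hflux]
  have hd : ∀ i, d x i - F i = - (∑ j, v x j * pd j (fun y => v y i) x) - pd i q x
      + ν * ∑ j, pd j (pd j (fun y => v y i)) x := by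
    intro i
    have := hmom x i
    linarith
  simp only [hd]
  have h0 := hdiv x
  simp only [Fin.sum_univ_three] at h0 ⊢
  generalize pd 0 (fun y => v y 0) x = a00 at *
  generalize pd 1 (fun y => v y 1) x = a11 at *
  generalize pd 2 (fun y => v y 2) x = a22 at *
  have h1 : a00 = - a11 - a22 := by linarith
  subst h1
  ring

end Vale.Agent.H12.P113
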