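import Vale.Agent.H12.P113.PDE2

set_option autoImplicit false

/-! Uniqueness of classical solutions for spatially constant forces, by the energy identity. -/

namespace Vale.Agent.H12.P113

open Set MeasureTheory Filter Topology

section

variable {ν : ℝ} {F U : ℝ → E3} {T : ℝ} {v : ℝ → E3 → E3} {q : ℝ → E3 → ℝ}

lemma comp_hasDeriv (h : IsClassicalSolution ν (fun t _ => F t) T v q) {t : ℝ}
    (ht : t ∈ Icc 0 T) (x : E3) (i : Fin 3) :
    HasDerivWithinAt (fun s => v s x i) (derivWithin (fun s => v s x i) (Icc 0 T) t)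
      (Icc 0 T) t :=
  (h.u_diff i t ht x).hasDerivWithinAt

/-- the squared distance density -/
noncomputable def gd (v : ℝ → E3 → E3) (U : ℝ → E3) (t : ℝ) (x : E3) : ℝ :=
  ∑ i, (v t x i - U t i) * (v t x i - U t i)

/-- its time derivative -/
noncomputable def gd' (v : ℝ → E3 → E3) (U F : ℝ → E3) (T : ℝ) (t : ℝ) (x : E3) : ℝ :=
  ∑ i, 2 * ((v t x i - U t i) * (derivWithin (fun s => v s x i) (Icc 0 T) t - F t i))

lemma gd_nonneg (t : ℝ) (x : E3) : 0 ≤ gd v U t x :=
  Finset.sum_nonneg fun _ _ => mul_self_nonneg _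

lemma gd_contOn (hUc : Continuous U) (h : IsClassicalSolution ν (fun t _ => F t) T v q) :
    ContinuousOn (fun z : ℝ × E3 => gd v U z.1 z.2) (Icc 0 T ×ˢ univ) := by
  have h1 : ∀ i, ContinuousOn (fun z : ℝ × E3 => v z.1 z.2 i) (Icc 0 T ×ˢ univ) :=
    fun i => h.u_cont i
  have h2 : ∀ i, ContinuousOn (fun z : ℝ × E3 => U z.1 i) (Icc 0 T ×ˢ univ) :=
    fun i => ((continuous_apply i).comp (hUc.comp continuous_fst)).continuousOn
  exact continuousOn_finsetSum _ fun i _ => ((h1 i).sub (h2 i)).mul ((h1 i).sub (h2 i))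

lemma gd'_contOn (hUc : Continuous U) (hFc : Continuous F)
    (h : IsClassicalSolution ν (fun t _ => F t) T v q) :
    ContinuousOn (fun z : ℝ × E3 => gd' v U F T z.1 z.2) (Icc 0 T ×ˢ univ) := by
  have h1 : ∀ i, ContinuousOn (fun z : ℝ × E3 => v z.1 z.2 i) (Icc 0 T ×ˢ univ) :=
    fun i => h.u_cont i
  have h2 : ∀ i, ContinuousOn (fun z : ℝ × E3 => U z.1 i) (Icc 0 T ×ˢ univ) :=
    fun i => ((continuous_apply i).comp (hUc.comp continuous_fst)).continuousOn
  have h3 : ∀ i, ContinuousOn (fun z : ℝ × E3 => F z.1 i) (Icc 0 T ×ˢ univ) :=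
    fun i => ((continuous_apply i).comp (hFc.comp continuous_fst)).continuousOn
  have h4 : ∀ i, ContinuousOn
      (fun z : ℝ × E3 => derivWithin (fun s => v s z.2 i) (Icc 0 T) z.1) (Icc 0 T ×ˢ univ) :=
    fun i => h.ut_cont i
  exact continuousOn_finsetSum _ fun i _ =>
    continuousOn_const.mul (((h1 i).sub (h2 i)).mul ((h4 i).sub (h3 i)))

lemma gd_hasDeriv (hU : ∀ t, HasDerivAt U (F t) t)
    (h : IsClassicalSolution ν (fun t _ => F t) T v q) {t : ℝ} (ht : t ∈ Ioo 0 T) (x : E3) :
    HasDerivAt (fun s => gd v U s x) (gd' v U F T t x) t := by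
  have hmem : Icc 0 T ∈ 𝓝 t := Icc_mem_nhds ht.1 ht.2
  have h1 : ∀ i, HasDerivAt (fun s => v s x i) (derivWithin (fun s => v s x i) (Icc 0 T) t) t :=
    fun i => (comp_hasDeriv h (Ioo_subset_Icc_self ht) x i).hasDerivAt hmem
  have h2 : ∀ i, HasDerivAt (fun s => U s i) (F t i) t := fun i => (hasDerivAt_pi.1 (hU t)) i
  have h3 : ∀ i ∈ Finset.univ, HasDerivAt (fun s => (v s x i - U s i) * (v s x i - U s i))
      (2 * ((v t x i - U t i) * (derivWithin (fun s => v s x i) (Icc 0 T) t - F t i))) t := by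
    intro i _
    have := ((h1 i).fun_sub (h2 i)).fun_mul ((h1 i).fun_sub (h2 i))
    refine this.congr_deriv ?_
    ring
  exact HasDerivAt.fun_sum h3

lemma gd'_integral_nonpos (hν : 0 ≤ ν)
    (h : IsClassicalSolution ν (fun t _ => F t) T v q) {t : ℝ} (ht : t ∈ Icc 0 T) :
    ∫ x in Icc (0 : E3) 1, gd' v U F T t x ≤ 0 := by
  set Φ : E3 → E3 := fun z : E3 => fun j : Fin 3 =>
          -(1 / 2) * (v t z j * ∑ i, (v t z i - U t i) * (v t z i - U t i))
          - (v t z j - U t j) * q t z
          + ν * ∑ i, (v t z i - U t i) * pd j (fun y => v t y i) z with hΦ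
  have hvi : ∀ i, ContDiff ℝ 2 (fun y => v t y i) := fun i => h.u_C2 i t ht
  have hv2 : ContDiff ℝ 2 (v t) := contDiff_pi.2 hvi
  have hq1 : ContDiff ℝ 1 (q t) := h.p_C1 t ht
  have hvi1 : ∀ i, ContDiff ℝ 1 (fun y => v t y i) := fun i => (hvi i).of_le (by norm_num)
  have hpd1 : ∀ i j, ContDiff ℝ 1 (pd j (fun y => v t y i)) :=
    fun i j => contDiff_pd (n := 1) (hvi i) j
  have hΦ1 : ContDiff ℝ 1 Φ := by
    rw [contDiff_pi]
    intro j
    have hw : ∀ i, ContDiff ℝ 1 (fun z => v t z i - U t i) := fun i => (hvi1 i).sub contDiff_const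
    exact ((contDiff_const.mul ((hvi1 j).mul (ContDiff.sum fun i _ => (hw i).mul (hw i)))).sub
      ((hw j).mul hq1)).add (contDiff_const.mul (ContDiff.sum fun i _ => (hw i).mul (hpd1 i j)))
  have hpdeq : ∀ i j x, pd j (fun y => v t y i) x
      = fderiv ℝ (fun y => v t y i) x (Pi.single j 1) :=
    fun i j x => pd_eq j ((hvi i).differentiable (by norm_num) x)
  have hΦp : ∀ (x : E3) (j : Fin 3), Φ (x + Pi.single j 1) = Φ x := by
    intro x k
    have h1 : v t (x + Pi.single k 1) = v t x := funext fun i => h.u_periodic i t ht x k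
    have h2 := h.p_periodic t ht x k
    have h3 : ∀ i j, pd j (fun y => v t y i) (x + Pi.single k 1) = pd j (fun y => v t y i) x := by
      intro i j
      rw [hpdeq, hpdeq]
      have hfun : (fun y => v t y i) = fun y => v t (y + Pi.single k 1) i := by
        funext y
        exact (h.u_periodic i t ht y k).symm
      conv_rhs => rw [hfun]
      rw [fderiv_comp_add_right (f := fun y => v t y i)]
    funext j
    simp only [hΦ, h1, h2, h3]
  have hpt : ∀ x, gd' v U F T t x = 2 * (∑ j, pd j (fun y => Φ y j) x)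
      - 2 * (ν * ∑ i, ∑ j, (pd j (fun y => v t y i) x) ^ 2) := by
    intro x
    have := energy_pointwise (ν := ν) (F := F t) (v := v t) (q := q t) (W := U t)
      (d := fun x i => derivWithin (fun s => v s x i) (Icc 0 T) t) hv2 hq1
      (h.div_free t ht) (fun x i => h.momentum t ht x i) x
    rw [gd', ← Finset.mul_sum, this]
    ring
  have hi1 : IntegrableOn (fun x => ∑ j, pd j (fun y => Φ y j) x) (Icc (0 : E3) 1) := by
    refine Continuous.integrableOn_Icc ?_
    refine continuous_finsetSum _ fun j _ => ?_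
    have : ContDiff ℝ (0 : ℕ) (pd j (fun y => Φ y j)) :=
      contDiff_pd (n := 0) (contDiff_pi.1 hΦ1 j) j
    exact this.continuous
  have hi2 : IntegrableOn (fun x => (∑ i, ∑ j, (pd j (fun y => v t y i) x) ^ 2))
      (Icc (0 : E3) 1) := by
    refine Continuous.integrableOn_Icc ?_
    exact continuous_finsetSum _ fun i _ => continuous_finsetSum _ fun j _ =>
      ((hpd1 i j).continuous).pow 2
  simp only [hpt]
  rw [integral_sub (hi1.const_mul 2) ((hi2.const_mul ν).const_mul 2), integral_const_mul,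
    integral_div_eq_zero Φ hΦ1 hΦp, integral_const_mul, integral_const_mul]
  have : 0 ≤ ∫ x in Icc (0 : E3) 1, ∑ i, ∑ j, (pd j (fun y => v t y i) x) ^ 2 :=
    setIntegral_nonneg measurableSet_Icc fun x _ =>
      Finset.sum_nonneg fun i _ => Finset.sum_nonneg fun j _ => sq_nonneg _
  have := mul_nonneg hν this
  linarith

lemma energy_contOn (hT : 0 < T) (hUc : Continuous U)
    (h : IsClassicalSolution ν (fun t _ => F t) T v q) :
    ContinuousOn (fun t => ∫ x in Icc (0 : E3) 1, gd v U t x) (Icc 0 T) := by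
  have hc : Continuous (fun z : ℝ × E3 => gd v U (projIcc 0 T hT.le z.1) z.2) := by
    have := gd_contOn hUc h
    refine this.comp_continuous (f := fun z : ℝ × E3 => (((projIcc 0 T hT.le z.1 : Icc 0 T) : ℝ), z.2))
      ?_ ?_
    · exact (continuous_subtype_val.comp (continuous_projIcc.comp continuous_fst)).prodMk
        continuous_snd
    · intro z
      exact ⟨(projIcc 0 T hT.le z.1).2, mem_univ _⟩
  have h2 : Continuous (fun t => ∫ x in Icc (0 : E3) 1, gd v U (projIcc 0 T hT.le t) x) :=
    continuous_parametric_integral_of_continuous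
      (f := fun (t : ℝ) (x : E3) => gd v U (projIcc 0 T hT.le t) x) hc isCompact_Icc
  refine h2.continuousOn.congr fun t ht => ?_
  simp only [projIcc_of_mem hT.le ht]

lemma energy_hasDeriv (hU : ∀ t, HasDerivAt U (F t) t) (hFc : Continuous F)
    (h : IsClassicalSolution ν (fun t _ => F t) T v q) {t : ℝ} (ht : t ∈ Ioo 0 T) :
    HasDerivAt (fun t => ∫ x in Icc (0 : E3) 1, gd v U t x)
      (∫ x in Icc (0 : E3) 1, gd' v U F T t x) t := by
  have hUc : Continuous U := continuous_iff_continuousAt.2 fun t => (hU t).continuousAt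
  have hsec : ∀ s ∈ Icc 0 T, Continuous (fun x => gd v U s x) := by
    intro s hs
    have := (gd_contOn hUc h).comp_continuous (f := fun x : E3 => (s, x)) (by fun_prop)
      (fun x => ⟨hs, mem_univ _⟩)
    exact this
  have hsec' : ∀ s ∈ Icc 0 T, Continuous (fun x => gd' v U F T s x) := by
    intro s hs
    have := (gd'_contOn hUc hFc h).comp_continuous (f := fun x : E3 => (s, x)) (by fun_prop)
      (fun x => ⟨hs, mem_univ _⟩)
    exact this
  obtain ⟨C, hC⟩ : ∃ C, ∀ z ∈ Icc 0 T ×ˢ Icc (0 : E3) 1, ‖gd' v U F T z.1 z.2‖ ≤ C := by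
    have hcpt : IsCompact (Icc 0 T ×ˢ Icc (0 : E3) 1) := isCompact_Icc.prod isCompact_Icc
    exact hcpt.exists_bound_of_continuousOn
      ((gd'_contOn hUc hFc h).mono (prod_mono_right (subset_univ _)))
  have hmem : Ioo 0 T ∈ 𝓝 t := Ioo_mem_nhds ht.1 ht.2
  refine (hasDerivAt_integral_of_dominated_loc_of_deriv_le (μ := volume.restrict (Icc (0 : E3) 1))
    (F := fun s x => gd v U s x) (F' := fun s x => gd' v U F T s x) (s := Ioo 0 T)
    (bound := fun _ => C) hmem ?_ ?_ ?_ ?_ ?_ ?_).2
  · filter_upwards [hmem] with s hs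
    exact (hsec s (Ioo_subset_Icc_self hs)).aestronglyMeasurable
  · exact (hsec t (Ioo_subset_Icc_self ht)).integrableOn_Icc
  · exact (hsec' t (Ioo_subset_Icc_self ht)).aestronglyMeasurable
  · refine (ae_restrict_iff' measurableSet_Icc).2 (Eventually.of_forall fun x hx s hs => ?_)
    exact hC (s, x) ⟨Ioo_subset_Icc_self hs, hx⟩
  · exact (continuous_const (y := C)).integrableOn_Icc
  · exact Eventually.of_forall fun x s hs => gd_hasDeriv hU h hs x

theorem uniqueness (hν : 0 ≤ ν) (hU : ∀ t, HasDerivAt U (F t) t) (hFc : Continuous F)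
    (hU0 : U 0 = 0) (hT : 0 < T) (h : IsClassicalSolution ν (fun t _ => F t) T v q) :
    ∀ t ∈ Icc 0 T, v t = (fun _ => U t) ∧ q t = (fun _ => 0) := by
  have hUc : Continuous U := continuous_iff_continuousAt.2 fun t => (hU t).continuousAt
  have hanti : AntitoneOn (fun t => ∫ x in Icc (0 : E3) 1, gd v U t x) (Icc 0 T) := by
    refine antitoneOn_of_deriv_nonpos (convex_Icc 0 T) (energy_contOn hT hUc h) ?_ ?_
    · intro t ht
      rw [interior_Icc] at ht
      exact (energy_hasDeriv hU hFc h ht).differentiableAt.differentiableWithinAt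
    · intro t ht
      rw [interior_Icc] at ht
      rw [(energy_hasDeriv hU hFc h ht).deriv]
      exact gd'_integral_nonpos hν h (Ioo_subset_Icc_self ht)
  have h0 : (∫ x in Icc (0 : E3) 1, gd v U 0 x) = 0 := by
    have : ∀ x, gd v U 0 x = 0 := by
      intro x
      simp [gd, h.initial, hU0]
    simp [this]
  have hv : ∀ t ∈ Icc 0 T, v t = (fun _ => U t) := by
    intro t ht
    have hle : (∫ x in Icc (0 : E3) 1, gd v U t x) ≤ 0 := by
      have := hanti (left_mem_Icc.2 hT.le) ht ht.1
      simpa only [h0] using this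
    have hsec : Continuous (fun x => gd v U t x) := by
      have := (gd_contOn hUc h).comp_continuous (f := fun x : E3 => (t, x)) (by fun_prop)
        (fun x => ⟨ht, mem_univ _⟩)
      exact this
    have heq : (∫ x in Icc (0 : E3) 1, gd v U t x) = 0 :=
      le_antisymm hle (setIntegral_nonneg measurableSet_Icc fun x _ => gd_nonneg t x)
    have hae : (fun x => gd v U t x) =ᵐ[volume.restrict (Icc (0 : E3) 1)] 0 :=
      (setIntegral_eq_zero_iff_of_nonneg_ae (Eventually.of_forall fun x => gd_nonneg t x)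
        hsec.integrableOn_Icc).1 heq
    have hon : EqOn (fun x => gd v U t x) 0 (Icc (0 : E3) 1) :=
      Measure.eqOn_of_ae_eq hae hsec.continuousOn continuousOn_const
        subset_closure_interior_Icc
    have hcomp : ∀ i, (fun x => v t x i) = fun _ => U t i := by
      intro i
      refine SpacePeriodic.eq_of_eqOn (h.u_periodic i t ht) (fun _ _ => rfl) ?_
      intro x hx
      have hz := hon hx
      simp only [gd, Pi.zero_apply] at hz
      rw [Finset.sum_eq_zero_iff_of_nonneg (fun i _ => mul_self_nonneg _)] at hz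
      have := mul_self_eq_zero.1 (hz i (Finset.mem_univ i))
      show v t x i = U t i
      linarith
    funext x i
    exact congrFun (hcomp i) x
  intro t ht
  refine ⟨hv t ht, ?_⟩
  have hgrad : ∀ x i, pd i (q t) x = 0 := by
    intro x i
    have hm := h.momentum t ht x i
    have h1 : derivWithin (fun s => v s x i) (Icc 0 T) t = F t i := by
      have hc : ∀ s ∈ Icc 0 T, (fun s => v s x i) s = (fun s => U s i) s := by
        intro s hs
        simp only [hv s hs]
      rw [derivWithin_congr hc (hc t ht)]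
      have h2 : HasDerivAt (fun s => U s i) (F t i) t := (hasDerivAt_pi.1 (hU t)) i
      exact h2.hasDerivWithinAt.derivWithin (uniqueDiffOn_Icc hT t ht)
    have h2 : ∀ i j x, pd j (fun y => v t y i) x = 0 := by
      intro i j x
      rw [hv t ht]
      exact pd_const j _ x
    have h3 : ∀ i j x, pd j (pd j (fun y => v t y i)) x = 0 := by
      intro i j x
      have : pd j (fun y => v t y i) = fun _ => (0 : ℝ) := funext fun y => h2 i j y
      rw [this]
      exact pd_const j _ x
    rw [h1] at hm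
    simp only [h2, h3] at hm
    simp at hm
    linarith
  have hq1 : ContDiff ℝ 1 (q t) := h.p_C1 t ht
  have hqd : Differentiable ℝ (q t) := hq1.differentiable (by norm_num)
  have hfd : ∀ x, fderiv ℝ (q t) x = 0 := by
    intro x
    ext y
    have hy : y = ∑ i, y i • (Pi.single i (1 : ℝ) : E3) := by
      funext k
      simp [Finset.sum_apply, Pi.single_apply]
    rw [hy, map_sum]
    refine Finset.sum_eq_zero fun i _ => ?_
    rw [map_smul]
    have := hgrad x i
    rw [pd_eq i (hqd x)] at this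
    rw [this, smul_zero]
  have hconst : ∀ x, q t x = q t 0 := fun x => is_const_of_fderiv_eq_zero hqd hfd x 0
  have hmean := h.p_mean t ht
  simp only [hconst] at hmean
  funext x
  rw [hconst x]
  have hvol : volume.real (Icc (0 : E3) 1) = 1 := by
    rw [measureReal_def, Real.volume_Icc_pi]
    simp
  rw [setIntegral_const, hvol, one_smul] at hmean
  exact hmean

end

end Vale.Agent.H12.P113
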