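import Vale.Agent.H12.P113.PDE3

set_option autoImplicit false

/-! Spatially constant solutions and their trajectories. -/

namespace Vale.Agent.H12.P113

open Set MeasureTheory Filter Topology

lemma classical_of_uniform {ν : ℝ} {F U : ℝ → E3} (hU : ∀ t, HasDerivAt U (F t) t)
    (hFc : Continuous F) (hU0 : U 0 = 0) {T : ℝ} (hT : 0 < T) :
    IsClassicalSolution ν (fun t _ => F t) T (fun t _ => U t) (fun _ _ => 0) := by
  have hUc : Continuous U := continuous_iff_continuousAt.2 fun t => (hU t).continuousAt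
  have hpd : ∀ (t : ℝ) (i j : Fin 3), pd j (fun _ : E3 => U t i) = fun _ => 0 :=
    fun t i j => funext fun x => pd_const j _ x
  have hpd0 : ∀ (j : Fin 3) (c : ℝ), pd j (fun _ : E3 => c) = fun _ => 0 :=
    fun j c => funext fun x => pd_const j _ x
  have hUi : ∀ i t, HasDerivAt (fun s => U s i) (F t i) t := fun i t => (hasDerivAt_pi.1 (hU t)) i
  have hder : ∀ i, ∀ t ∈ Icc 0 T, derivWithin (fun s => U s i) (Icc 0 T) t = F t i :=
    fun i t ht => (hUi i t).hasDerivWithinAt.derivWithin (uniqueDiffOn_Icc hT t ht)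
  refine
    { u_periodic := fun i t _ x j => rfl
      p_periodic := fun t _ x j => rfl
      u_C2 := fun i t _ => contDiff_const
      p_C1 := fun t _ => contDiff_const
      u_diff := fun i t _ x => (hUi i t).differentiableAt.differentiableWithinAt
      u_cont := fun i => ((continuous_apply i).comp (hUc.comp continuous_fst)).continuousOn
      ut_cont := fun i => ?_
      du_cont := fun i j => ?_
      ddu_cont := fun i j k => ?_
      p_cont := continuousOn_const
      dp_cont := fun j => ?_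
      p_mean := fun t _ => by simp
      initial := fun x i => by rw [hU0]; rfl
      div_free := fun t _ x => ?_
      momentum := fun t ht x i => ?_ }
  · refine ContinuousOn.congr (f := fun z : ℝ × E3 => F z.1 i)
      ((continuous_apply i).comp (hFc.comp continuous_fst)).continuousOn ?_
    intro z hz
    exact hder i z.1 hz.1
  · simp only [hpd]
    exact continuousOn_const
  · simp only [hpd, hpd0]
    exact continuousOn_const
  · simp only [hpd0]
    exact continuousOn_const
  · simp only [hpd]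
    simp
  · simp only [hpd, hpd0]
    rw [hder i t ht]
    simp

/-- the time profile of the force -/
noncomputable def prof (t : ℝ) : ℝ := expNegInvGlue (1 - t)

lemma prof_contDiff : ContDiff ℝ (⊤ : ℕ∞) prof :=
  expNegInvGlue.contDiff.comp (contDiff_const.sub contDiff_id)

lemma prof_continuous : Continuous prof := prof_contDiff.continuous

lemma prof_pos {t : ℝ} (ht : t < 1) : 0 < prof t := expNegInvGlue.pos_of_pos (by linarith)

lemma prof_nonneg (t : ℝ) : 0 ≤ prof t := expNegInvGlue.nonneg _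

lemma prof_zero {t : ℝ} (ht : 1 ≤ t) : prof t = 0 := expNegInvGlue.zero_of_nonpos (by linarith)

lemma prof_le_one (t : ℝ) : prof t ≤ 1 := by
  unfold prof expNegInvGlue
  split_ifs with h
  · exact zero_le_one
  · push Not at h
    rw [Real.exp_le_one_iff]
    simpa using h.le

/-- velocity profile -/
noncomputable def Phi (t : ℝ) : ℝ := ∫ s in (0 : ℝ)..t, prof s

lemma Phi_hasDeriv (t : ℝ) : HasDerivAt Phi (prof t) t :=
  intervalIntegral.integral_hasDerivAt_right (prof_continuous.intervalIntegrable _ _)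
    (prof_continuous.stronglyMeasurableAtFilter _ _) prof_continuous.continuousAt

lemma Phi_contDiff : ContDiff ℝ (⊤ : ℕ∞) Phi := by
  rw [contDiff_infty_iff_deriv]
  refine ⟨fun t => (Phi_hasDeriv t).differentiableAt, ?_⟩
  have : deriv Phi = prof := funext fun t => (Phi_hasDeriv t).deriv
  rw [this]
  exact prof_contDiff

lemma Phi_continuous : Continuous Phi := Phi_contDiff.continuous

/-- displacement profile -/
noncomputable def Psi (t : ℝ) : ℝ := ∫ s in (0 : ℝ)..t, Phi s

lemma Psi_hasDeriv (t : ℝ) : HasDerivAt Psi (Phi t) t :=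
  intervalIntegral.integral_hasDerivAt_right (Phi_continuous.intervalIntegrable _ _)
    (Phi_continuous.stronglyMeasurableAtFilter _ _) Phi_continuous.continuousAt

lemma Phi_le {t : ℝ} (ht : 0 ≤ t) : Phi t ≤ t := by
  have : Phi t ≤ ∫ s in (0 : ℝ)..t, (1 : ℝ) :=
    intervalIntegral.integral_mono_on ht (prof_continuous.intervalIntegrable _ _)
      (by simp) (fun s _ => prof_le_one s)
  simpa using this

lemma Phi_pos {t : ℝ} (ht : 0 < t) : 0 < Phi t := by
  have h1 : Phi t = ∫ s in (0 : ℝ)..t, prof s := rfl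
  rw [h1]
  refine intervalIntegral.integral_pos ht prof_continuous.continuousOn
    (fun s _ => prof_nonneg s) ⟨0, ⟨le_rfl, ht.le⟩, prof_pos (by norm_num)⟩

lemma Psi_one_pos : 0 < Psi 1 := by
  have h1 : Psi 1 = ∫ s in (0 : ℝ)..1, Phi s := rfl
  rw [h1]
  refine intervalIntegral.integral_pos one_pos Phi_continuous.continuousOn
    (fun s hs => (Phi_pos hs.1).le) ⟨1, ⟨zero_le_one, le_rfl⟩, Phi_pos one_pos⟩

lemma Psi_one_lt : Psi 1 < 1 := by
  have : Psi 1 ≤ ∫ s in (0 : ℝ)..1, s :=
    intervalIntegral.integral_mono_on zero_le_one (Phi_continuous.intervalIntegrable _ _)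
      (by simp) (fun s hs => Phi_le hs.1)
  have h2 : (∫ s in (0 : ℝ)..1, s) = 1 / 2 := by simp
  rw [h2] at this
  linarith

/-- the force with amplitude `κ` -/
noncomputable def force (κ : ℝ) : ℝ → E3 → E3 := fun t _ => Pi.single 2 (κ * prof t)

/-- the velocity -/
noncomputable def vel (κ : ℝ) : ℝ → E3 → E3 := fun t _ => Pi.single 2 (κ * Phi t)

lemma hasDerivAt_single {g : ℝ → ℝ} {g' t : ℝ} (κ : ℝ) (hg : HasDerivAt g g' t) :
    HasDerivAt (fun s => (Pi.single 2 (κ * g s) : E3)) (Pi.single 2 (κ * g')) t := by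
  rw [hasDerivAt_pi]
  intro i
  by_cases hi : i = 2
  · subst hi
    simpa using hg.const_mul κ
  · simp only [Pi.single_eq_of_ne hi]
    exact hasDerivAt_const _ _

lemma contDiff_single {X : Type*} [NormedAddCommGroup X] [NormedSpace ℝ X] {g : X → ℝ}
    (hg : ContDiff ℝ (⊤ : ℕ∞) g) : ContDiff ℝ (⊤ : ℕ∞) (fun s => (Pi.single 2 (g s) : E3)) := by
  rw [contDiff_pi]
  intro i
  by_cases hi : i = 2
  · subst hi
    simpa using hg
  · simp only [Pi.single_eq_of_ne hi]
    exact contDiff_const

lemma force_contDiff (κ : ℝ) (i : Fin 3) : IsSmooth (fun t x => force κ t x i) :=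
  contDiff_pi.1 (contDiff_single (X := ℝ × E3) (g := fun z => κ * prof z.1)
    (contDiff_const.mul (prof_contDiff.comp contDiff_fst))) i

lemma vel_solution (ν κ : ℝ) :
    IsGlobalSmoothSolution ν (force κ) (vel κ) (fun _ _ => 0) := by
  refine ⟨fun i => contDiff_pi.1 (contDiff_single (X := ℝ × E3) (g := fun z => κ * Phi z.1)
    (contDiff_const.mul (Phi_contDiff.comp contDiff_fst))) i, contDiff_const, fun T hT => ?_⟩
  exact classical_of_uniform (F := fun t => Pi.single 2 (κ * prof t))
    (U := fun t => Pi.single 2 (κ * Phi t))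
    (fun t => hasDerivAt_single κ (Phi_hasDeriv t))
    (contDiff_single (contDiff_const.mul prof_contDiff)).continuous
    (by simp [Phi]) hT

lemma vel_unique {ν : ℝ} (hν : 0 < ν) (κ : ℝ) : ∀ T > 0, ∀ v q,
    IsClassicalSolution ν (force κ) T v q → ∀ t ∈ Icc 0 T,
      v t = vel κ t ∧ q t = (fun _ => 0) := by
  intro T hT v q h
  exact uniqueness (F := fun t => Pi.single 2 (κ * prof t))
    (U := fun t => Pi.single 2 (κ * Phi t)) hν.le
    (fun t => hasDerivAt_single κ (Phi_hasDeriv t))
    (contDiff_single (contDiff_const.mul prof_contDiff)).continuous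
    (by simp [Phi]) hT h

lemma exists_trajectory (κ : ℝ) :
    IsTrajectory (vel κ) (toTorus 0) (fun t => Pi.single 2 (κ * Psi t)) := by
  refine ⟨by simp [Psi], fun t _ i => ?_⟩
  exact (hasDerivAt_pi.1 (hasDerivAt_single κ (Psi_hasDeriv t)) i).hasDerivWithinAt

/-- Every trajectory is `X 0` plus the uniform drift. -/
lemma trajectory_eq {κ : ℝ} {a : Torus3} {X : ℝ → E3} (hX : IsTrajectory (vel κ) a X) :
    ∀ t ≥ 0, X t = X 0 + Pi.single 2 (κ * Psi t) := by
  intro t ht
  have hd : ∀ s ≥ 0, HasDerivWithinAt (fun s => X s - Pi.single 2 (κ * Psi s)) 0 (Ici 0) s := by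
    intro s hs
    have hXs : HasDerivWithinAt X (vel κ s (X s)) (Ici 0) s :=
      hasDerivWithinAt_pi.2 fun i => hX.2 s hs i
    have := hXs.fun_sub (hasDerivAt_single κ (Psi_hasDeriv s)).hasDerivWithinAt
    refine this.congr_deriv ?_
    simp [vel]
  have hconst := constant_of_derivWithin_zero (f := fun s => X s - Pi.single 2 (κ * Psi s))
    (a := 0) (b := t)
    (fun s hs => ((hd s hs.1).mono Icc_subset_Ici_self).differentiableWithinAt)
    (fun s hs => ((hd s hs.1).mono Icc_subset_Ici_self).derivWithin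
      (uniqueDiffOn_Icc (lt_of_le_of_lt hs.1 hs.2) s ⟨hs.1, hs.2.le⟩))
    t ⟨ht, le_rfl⟩
  have h0 : Psi 0 = 0 := by simp [Psi]
  simp only [h0, mul_zero, Pi.single_zero, sub_zero] at hconst
  rw [← hconst]
  abel

/-- The observation set: the complement of the plane `x₂ = 0`. -/
def obs : Set Torus3 := {y | y 2 ≠ 0}

lemma obs_open : IsOpen obs := isOpen_ne.preimage (continuous_apply 2)

lemma enters_iff {κ : ℝ} (h0 : 0 ≤ κ) (h1 : κ ≤ 1) {X : ℝ → E3}
    (hX : IsTrajectory (vel κ) (toTorus 0) X) :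
    (∃ t, 0 ≤ t ∧ toTorus (X t) ∈ obs) ↔ 0 < κ := by
  have hX0 : ((X 0 2 : ℝ) : UnitAddCircle) = 0 := by
    have := congrFun hX.1 2
    simpa [toTorus] using this
  have hXt : ∀ t ≥ 0, ((X t 2 : ℝ) : UnitAddCircle) = ((κ * Psi t : ℝ) : UnitAddCircle) := by
    intro t ht
    rw [trajectory_eq hX t ht]
    simp [hX0]
  constructor
  · rintro ⟨t, ht, hmem⟩
    by_contra hk
    have hk0 : κ = 0 := le_antisymm (not_lt.1 hk) h0
    apply hmem
    show ((X t 2 : ℝ) : UnitAddCircle) = 0
    rw [hXt t ht, hk0, zero_mul]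
    rfl
  · intro hk
    refine ⟨1, zero_le_one, ?_⟩
    show ((X 1 2 : ℝ) : UnitAddCircle) ≠ 0
    rw [hXt 1 zero_le_one]
    have hpos : 0 < κ * Psi 1 := mul_pos hk Psi_one_pos
    have hlt : κ * Psi 1 < 1 := by
      calc κ * Psi 1 ≤ 1 * Psi 1 := mul_le_mul_of_nonneg_right h1 Psi_one_pos.le
        _ < 1 := by rw [one_mul]; exact Psi_one_lt
    intro hz
    rw [AddCircle.coe_eq_zero_iff] at hz
    obtain ⟨n, hn⟩ := hz
    simp only [zsmul_eq_mul, mul_one] at hn
    rw [← hn] at hpos hlt
    have h2 : (0 : ℤ) < n := by exact_mod_cast hpos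
    have h3 : n < (1 : ℤ) := by exact_mod_cast hlt
    omega

end Vale.Agent.H12.P113
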