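import Vale.Agent.H12.P113.Num

set_option autoImplicit false

/-! Correctness of the program. -/

namespace Vale.Agent.H12.P113

lemma Gd_eq_zero {n : ℕ} {t : ℝ} (ht : 1 ≤ t) : Gd n t = 0 := by
  have hE : expNegInvGlue (1 - t) = 0 := expNegInvGlue.zero_of_nonpos (by linarith)
  unfold Gd
  rw [hE]
  simp

lemma Gd_eq (n a b d m : ℕ) (hm : 0 < m) (hmR : (m : ℝ) = (d : ℝ) + 1 + b - a) :
    Gd n (RatName.val (a, b, d)) = (((npos n d m : ℝ) - nneg n d m) / (m : ℝ) ^ (2 * n))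
      * Real.exp (-(((d : ℝ) + 1) / m)) := by
  have hd1 : (0 : ℝ) < (d : ℝ) + 1 := by positivity
  have hval : RatName.val (a, b, d) = ((a : ℝ) - b) / ((d : ℝ) + 1) := rfl
  have hm0' : (0 : ℝ) < m := by exact_mod_cast hm
  have h1t : 1 - RatName.val (a, b, d) = (m : ℝ) / ((d : ℝ) + 1) := by
    rw [hval, hmR]
    field_simp
    ring
  set y : ℝ := ((d : ℝ) + 1) / m with hy
  have hy0 : 0 < y := by positivity
  have hinv : (1 - RatName.val (a, b, d))⁻¹ = y := by rw [h1t, inv_div]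
  have hE : expNegInvGlue (1 - RatName.val (a, b, d)) = Real.exp (-y) := by
    have hpos : ¬ (1 - RatName.val (a, b, d)) ≤ 0 := by
      rw [h1t, not_le]; positivity
    unfold expNegInvGlue
    rw [if_neg hpos, hinv]
  unfold Gd
  rw [hinv, hE]
  have e1 : (npos n d m : ℝ) - nneg n d m
      = ∑ j ∈ Finset.range (n + 1), (-1 : ℝ) ^ j * (term n d m j : ℝ) := by
    unfold npos nneg
    push_cast
    rw [← Finset.sum_sub_distrib]
    refine Finset.sum_congr rfl fun j _ => ?_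
    by_cases hj : j % 2 = 0
    · rw [if_pos hj, if_pos hj, (Nat.even_iff.2 hj).neg_one_pow]; ring
    · rw [if_neg hj, if_neg hj]
      have : Odd j := Nat.not_even_iff_odd.1 (fun h => hj (Nat.even_iff.1 h))
      rw [this.neg_one_pow]; ring
  rw [e1, Finset.sum_div, Finset.sum_mul]
  refine Finset.sum_congr rfl fun j hj => ?_
  have hjn : j ≤ n := by have := Finset.mem_range.1 hj; omega
  have e4 : (term n d m j : ℝ) / (m : ℝ) ^ (2 * n) = (lah n j : ℝ) * y ^ (n + j) := by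
    unfold term
    push_cast
    rw [hy, div_pow]
    have e5 : (m : ℝ) ^ (2 * n) = (m : ℝ) ^ (n - j) * (m : ℝ) ^ (n + j) := by
      rw [← pow_add]; congr 1; omega
    rw [e5]
    field_simp
  calc (-1 : ℝ) ^ j * (lah n j : ℝ) * (y ^ (n + j) * Real.exp (-y))
      = (-1 : ℝ) ^ j * ((lah n j : ℝ) * y ^ (n + j)) * Real.exp (-y) := by ring
    _ = (-1 : ℝ) ^ j * ((term n d m j : ℝ) / (m : ℝ) ^ (2 * n)) * Real.exp (-y) := by rw [e4]
    _ = (-1 : ℝ) ^ j * (term n d m j : ℝ) / (m : ℝ) ^ (2 * n) * Real.exp (-y) := by ring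

lemma R_bound (x z n m : ℕ) (hm : 0 < m) :
    |((x : ℝ) - z) / (m : ℝ) ^ (2 * n)| ≤ (x : ℝ) + z := by
  have hm1 : (1 : ℝ) ≤ m := by exact_mod_cast hm
  have hpow : (0 : ℝ) < (m : ℝ) ^ (2 * n) := by positivity
  rw [abs_div, abs_of_pos hpow, div_le_iff₀ hpow]
  have hx : (0 : ℝ) ≤ x := Nat.cast_nonneg _
  have hz : (0 : ℝ) ≤ z := Nat.cast_nonneg _
  have e1 : |(x : ℝ) - z| ≤ (x : ℝ) + z := by
    rw [abs_le]
    constructor <;> linarith
  have e2 : (1 : ℝ) ≤ (m : ℝ) ^ (2 * n) := one_le_pow₀ hm1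
  calc |(x : ℝ) - z| ≤ ((x : ℝ) + z) * 1 := by rw [mul_one]; exact e1
    _ ≤ ((x : ℝ) + z) * (m : ℝ) ^ (2 * n) := mul_le_mul_of_nonneg_left e2 (by positivity)

lemma BK_bound (x z k K : ℕ) (hK : K = (x + z + 1) * (k + 1)) :
    ((x : ℝ) + z) * (1 / (K : ℝ)) ≤ 1 / ((k : ℝ) + 1) := by
  have hK' : (K : ℝ) = ((x : ℝ) + z + 1) * ((k : ℝ) + 1) := by rw [hK]; push_cast; ring
  have hx : (0 : ℝ) ≤ x := Nat.cast_nonneg _
  have hz : (0 : ℝ) ≤ z := Nat.cast_nonneg _
  have hk : (0 : ℝ) ≤ k := Nat.cast_nonneg _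
  rw [hK', mul_one_div, div_le_div_iff₀ (by positivity) (by positivity)]
  nlinarith

lemma approx_found (x z n d m k s K N : ℕ) (hm : 0 < m) (hK : K = (x + z + 1) * (k + 1))
    (hN : N = K * (d + 1) ^ 2) :
    |1 / ((s : ℝ) + 1) * (((x : ℝ) - z) / (m : ℝ) ^ (2 * n) * Real.exp (-(((d : ℝ) + 1) / m)))
      - RatName.val (x * (N * m - (d + 1)) ^ N, z * (N * m - (d + 1)) ^ N,
          m ^ (2 * n) * (N * m) ^ N * (s + 1) - 1)| ≤ 1 / ((k : ℝ) + 1) := by
  have hm1 : (1 : ℝ) ≤ m := by exact_mod_cast hm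
  have hm0' : (0 : ℝ) < m := by linarith
  set R : ℝ := ((x : ℝ) - z) / (m : ℝ) ^ (2 * n) with hR
  set y : ℝ := ((d : ℝ) + 1) / m with hy
  have hy0 : 0 < y := by positivity
  have hRB : |R| ≤ (x : ℝ) + z := R_bound x z n m hm
  have hNc : (N : ℝ) = (K : ℝ) * ((d : ℝ) + 1) ^ 2 := by rw [hN]; push_cast; ring
  have hK1 : 1 ≤ K := by rw [hK]; exact Nat.succ_le_of_lt (by positivity)
  have hKpos : (0 : ℝ) < K := by exact_mod_cast hK1
  have hNd : d + 1 ≤ N := by
    rw [hN]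
    calc d + 1 = 1 * (d + 1) := (one_mul _).symm
      _ ≤ K * (d + 1) ^ 2 := Nat.mul_le_mul hK1 (by nlinarith)
  have hNpos : 0 < N := by omega
  have hNR : (0 : ℝ) < N := by exact_mod_cast hNpos
  have hyd : y ≤ (d : ℝ) + 1 := by
    rw [hy, div_le_iff₀ hm0']
    nlinarith
  have hyN : y ≤ N := hyd.trans (by exact_mod_cast hNd)
  have hsub : d + 1 ≤ N * m := by
    calc d + 1 ≤ N := hNd
      _ = N * 1 := (mul_one _).symm
      _ ≤ N * m := Nat.mul_le_mul_left _ hm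
  have hDpos : 0 < (N * m) ^ N := pow_pos (Nat.mul_pos hNpos hm) _
  have hval2 : RatName.val (x * (N * m - (d + 1)) ^ N, z * (N * m - (d + 1)) ^ N,
          m ^ (2 * n) * (N * m) ^ N * (s + 1) - 1)
      = (1 / ((s : ℝ) + 1)) * (R * (1 - y / N) ^ N) := by
    have hPD : (((N * m - (d + 1)) ^ N : ℕ) : ℝ) / (((N * m) ^ N : ℕ) : ℝ)
        = (1 - y / N) ^ N := by
      push_cast [Nat.cast_sub hsub]
      rw [← div_pow]
      congr 1
      rw [hy]
      field_simp
    rw [← hPD]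
    generalize (N * m - (d + 1)) ^ N = P
    generalize (N * m) ^ N = D at hDpos
    have hD0 : (D : ℝ) ≠ 0 := by
      have : (0 : ℝ) < D := by exact_mod_cast hDpos
      exact this.ne'
    have hpos : 1 ≤ m ^ (2 * n) * D * (s + 1) :=
      Nat.succ_le_of_lt (Nat.mul_pos (Nat.mul_pos (pow_pos hm _) hDpos) (Nat.succ_pos _))
    show (((x * P : ℕ) : ℝ) - ((z * P : ℕ) : ℝ)) /
      (((m ^ (2 * n) * D * (s + 1) - 1 : ℕ) : ℝ) + 1) = _
    rw [Nat.cast_sub hpos]
    push_cast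
    rw [hR]
    have h1 : (m : ℝ) ^ (2 * n) ≠ 0 := by positivity
    have h2 : (s : ℝ) + 1 ≠ 0 := by positivity
    rw [sub_add_cancel]
    field_simp
  rw [hval2]
  have e : 1 / ((s : ℝ) + 1) * (R * Real.exp (-y)) - 1 / ((s : ℝ) + 1) * (R * (1 - y / N) ^ N)
      = (1 / ((s : ℝ) + 1)) * (R * (Real.exp (-y) - (1 - y / N) ^ N)) := by ring
  rw [e, abs_mul, abs_mul]
  have h1 : |1 / ((s : ℝ) + 1)| ≤ 1 := by
    rw [abs_of_nonneg (by positivity), div_le_one (by positivity)]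
    have : (0 : ℝ) ≤ s := Nat.cast_nonneg _
    linarith
  have h2 := exp_approx hy0 hyN
  have h3 : y ^ 2 / (N : ℝ) ≤ 1 / (K : ℝ) := by
    rw [hNc, div_le_div_iff₀ (by positivity) hKpos]
    have : y ^ 2 ≤ ((d : ℝ) + 1) ^ 2 := pow_le_pow_left₀ hy0.le hyd 2
    nlinarith
  have hB0 : (0 : ℝ) ≤ (x : ℝ) + z := by positivity
  calc |1 / ((s : ℝ) + 1)| * (|R| * |Real.exp (-y) - (1 - y / N) ^ N|)
      ≤ 1 * (((x : ℝ) + z) * (1 / (K : ℝ))) := by
        refine mul_le_mul h1 ?_ (by positivity) zero_le_one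
        exact mul_le_mul hRB (h2.trans h3) (abs_nonneg _) hB0
    _ = ((x : ℝ) + z) * (1 / (K : ℝ)) := one_mul _
    _ ≤ 1 / ((k : ℝ) + 1) := BK_bound x z k K hK

lemma approx_notfound (x z n d m k K : ℕ) (hm : 0 < m) (hK : K = (x + z + 1) * (k + 1))
    {κ : ℝ} (h0 : 0 ≤ κ) (h1 : κ ≤ 1 / ((K : ℝ) + 1)) :
    |κ * (((x : ℝ) - z) / (m : ℝ) ^ (2 * n) * Real.exp (-(((d : ℝ) + 1) / m)))|
      ≤ 1 / ((k : ℝ) + 1) := by
  have hRB := R_bound x z n m hm
  have hK1 : 1 ≤ K := by rw [hK]; exact Nat.succ_le_of_lt (by positivity)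
  have hKpos : (0 : ℝ) < K := by exact_mod_cast hK1
  have hexp1 : Real.exp (-(((d : ℝ) + 1) / m)) ≤ 1 := by
    rw [Real.exp_le_one_iff, neg_nonpos]; positivity
  rw [abs_mul, abs_mul, abs_of_nonneg h0, abs_of_pos (Real.exp_pos _)]
  have h2 : (1 : ℝ) / ((K : ℝ) + 1) ≤ 1 / (K : ℝ) :=
    one_div_le_one_div_of_le hKpos (by linarith)
  have hB0 : (0 : ℝ) ≤ (x : ℝ) + z := by positivity
  calc κ * (|((x : ℝ) - z) / (m : ℝ) ^ (2 * n)| * Real.exp (-(((d : ℝ) + 1) / m)))
      ≤ (1 / (K : ℝ)) * (((x : ℝ) + z) * 1) := by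
        refine mul_le_mul (h1.trans h2) ?_ (by positivity) (by positivity)
        exact mul_le_mul hRB hexp1 (Real.exp_pos _).le hB0
    _ = ((x : ℝ) + z) * (1 / (K : ℝ)) := by ring
    _ ≤ 1 / ((k : ℝ) + 1) := BK_bound x z k K hK

lemma core_spec (M : Machine) (w : List ℕ) (n a b d k : ℕ) :
    |kappa M w * Gd n (RatName.val (a, b, d)) - (core ((M, w), (n, (a, b, d), k))).val|
      ≤ 1 / ((k : ℝ) + 1) := by
  have hd1 : (0 : ℝ) < (d : ℝ) + 1 := by positivity
  have hv0 : RatName.val (0, 0, 0) = 0 := by simp [RatName.val]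
  rcases Nat.eq_zero_or_pos ((d + 1 + b) - a) with hm0 | hmpos
  · -- force vanishes
    have hle : d + 1 + b ≤ a := by omega
    have hle' : (d : ℝ) + 1 + b ≤ a := by exact_mod_cast hle
    have h1 : 1 ≤ RatName.val (a, b, d) := by
      show 1 ≤ ((a : ℝ) - b) / ((d : ℝ) + 1)
      rw [le_div_iff₀ hd1]; linarith
    have hc : core ((M, w), (n, (a, b, d), k)) = (0, 0, 0) := by
      unfold core
      rw [if_neg]
      rintro ⟨h, -⟩
      have : qm ((M, w), (n, (a, b, d), k)) = (d + 1 + b) - a := rfl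
      omega
    rw [Gd_eq_zero h1, hc, hv0]
    simp
    positivity
  · obtain ⟨m, hm⟩ : ∃ m, m = (d + 1 + b) - a := ⟨_, rfl⟩
    have hmp : 0 < m := by omega
    have hmR : (m : ℝ) = (d : ℝ) + 1 + b - a := by
      rw [hm, Nat.cast_sub (by omega)]; push_cast; ring
    rw [Gd_eq n a b d m hmp hmR]
    have hqm : qm ((M, w), (n, (a, b, d), k)) = m := hm.symm
    have hqp : qp ((M, w), (n, (a, b, d), k)) = npos n d m := by unfold qp; rw [hqm]
    have hqn : qn ((M, w), (n, (a, b, d), k)) = nneg n d m := by unfold qn; rw [hqm]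
    have hqK : qK ((M, w), (n, (a, b, d), k)) = (npos n d m + nneg n d m + 1) * (k + 1) := by
      unfold qK; rw [hqp, hqn]
    obtain ⟨K, hK⟩ : ∃ K, K = (npos n d m + nneg n d m + 1) * (k + 1) := ⟨_, rfl⟩
    rw [← hK] at hqK
    have hqN : qN ((M, w), (n, (a, b, d), k)) = K * (d + 1) ^ 2 := by
      unfold qN; rw [hqK]
    have hqs : qs ((M, w), (n, (a, b, d), k)) = firstHalt (M, w) K := by
      unfold qs; rw [hqK]
    obtain ⟨N, hN⟩ : ∃ N, N = K * (d + 1) ^ 2 := ⟨_, rfl⟩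
    rw [← hN] at hqN
    have hqP : qP ((M, w), (n, (a, b, d), k)) = (N * m - (d + 1)) ^ N := by
      unfold qP; rw [hqN, hqm]
    have hqD : qD ((M, w), (n, (a, b, d), k)) = (N * m) ^ N := by
      unfold qD; rw [hqN, hqm]
    by_cases hs : firstHalt (M, w) K ≤ K
    · have hc : core ((M, w), (n, (a, b, d), k)) = (npos n d m * (N * m - (d + 1)) ^ N,
          nneg n d m * (N * m - (d + 1)) ^ N,
          m ^ (2 * n) * (N * m) ^ N * (firstHalt (M, w) K + 1) - 1) := by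
        unfold core
        rw [hqm, hqs, hqK, hqp, hqn, hqP, hqD, if_pos ⟨hmp, hs⟩]
      rw [hc, kappa_of_le hs]
      exact approx_found (npos n d m) (nneg n d m) n d m k _ K N hmp hK hN
    · have hc : core ((M, w), (n, (a, b, d), k)) = (0, 0, 0) := by
        unfold core
        rw [hqm, hqs, hqK, if_neg (fun h => hs h.2)]
      rw [hc, hv0, sub_zero]
      exact approx_notfound (npos n d m) (nneg n d m) n d m k K hmp hK (kappa_nonneg M w)
        (kappa_of_gt (not_le.1 hs))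

/-! ### The program and the compiler -/

/-- inputs of a program -/
abbrev Query := Fin 3 × (ℕ × ℕ × ℕ × ℕ) × (RatName × RatName × RatName × RatName) × ℕ

/-- the answer to a query -/
def answer (p : (Machine × List ℕ) × Query) : RatName :=
  if p.2.1 = 2 ∧ p.2.2.1.2 = (0, 0, 0) then
    core (p.1, (p.2.2.1.1, p.2.2.2.1.1, p.2.2.2.2))
  else (0, 0, 0)

open Primrec in
lemma primrec_answer : Primrec answer := by
  have h1 : Primrec (fun p : (Machine × List ℕ) × Query => p.2.1) := fst.comp snd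
  have h2 : Primrec (fun p : (Machine × List ℕ) × Query => p.2.2.1.2) :=
    snd.comp (fst.comp (snd.comp snd))
  have h3 : Primrec (fun p : (Machine × List ℕ) × Query => p.2.2.1.1) :=
    fst.comp (fst.comp (snd.comp snd))
  have h4 : Primrec (fun p : (Machine × List ℕ) × Query => p.2.2.2.1.1) :=
    fst.comp (fst.comp (snd.comp (snd.comp snd)))
  have h5 : Primrec (fun p : (Machine × List ℕ) × Query => p.2.2.2.2) :=
    snd.comp (snd.comp (snd.comp snd))
  have h6 : Primrec (fun p : (Machine × List ℕ) × Query =>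
      ((p.1, (p.2.2.1.1, p.2.2.2.1.1, p.2.2.2.2)) : Inp)) :=
    fst.pair (h3.pair (h4.pair h5))
  have h7 : Primrec (fun p : (Machine × List ℕ) × Query =>
      core (p.1, (p.2.2.1.1, p.2.2.2.1.1, p.2.2.2.2))) := Primrec.comp primrec_core h6
  unfold answer
  exact Primrec.ite (PrimrecPred.and (Primrec.eq.comp h1 (Primrec.const 2))
    (Primrec.eq.comp h2 (Primrec.const (0, 0, 0)))) h7 (Primrec.const (0, 0, 0))

lemma exists_compiler : ∃ compile : Machine × List ℕ → Nat.Partrec.Code, Computable compile ∧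
    ∀ (Mw : Machine × List ℕ) (Q : Query),
      Encodable.encode (answer (Mw, Q)) ∈ (compile Mw).eval (Encodable.encode Q) := by
  have hp : Nat.Partrec (fun n => Part.bind
      (Encodable.decode (α := (Machine × List ℕ) × Query) n : Part ((Machine × List ℕ) × Query))
      fun a => (Part.some (answer a)).map Encodable.encode) :=
    primrec_answer.to_comp
  obtain ⟨c, hc⟩ := Nat.Partrec.Code.exists_code.1 hp
  refine ⟨fun Mw => Nat.Partrec.Code.curry c (Encodable.encode Mw), ?_, ?_⟩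
  · exact (Nat.Partrec.Code.primrec₂_curry.comp (Primrec.const c) Primrec.encode).to_comp
  · intro Mw Q
    rw [Nat.Partrec.Code.eval_curry, hc, ← Encodable.encode_prod_val Mw Q]
    simp

lemma answer_spec (M : Machine) (w : List ℕ) (i : Fin 3) (α : ℕ × ℕ × ℕ × ℕ)
    (t x₀ x₁ x₂ : RatName) (k : ℕ) :
    |mixed α (fun s y => force (kappa M w) s y i) t.val ![x₀.val, x₁.val, x₂.val]
      - (answer ((M, w), (i, α, (t, x₀, x₁, x₂), k))).val| ≤ 1 / ((k : ℝ) + 1) := by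
  have h0 : RatName.val (0, 0, 0) = 0 := by simp [RatName.val]
  have hk1 : (0 : ℝ) ≤ 1 / ((k : ℝ) + 1) := by positivity
  by_cases hi : i = 2
  · subst hi
    rw [mixed_force_two]
    by_cases hα : α.2 = (0, 0, 0)
    · have : answer ((M, w), (2, α, (t, x₀, x₁, x₂), k)) = core ((M, w), (α.1, t, k)) := by
        unfold answer
        rw [if_pos ⟨rfl, hα⟩]
      rw [this, if_pos hα]
      exact core_spec M w α.1 t.1 t.2.1 t.2.2 k
    · have : answer ((M, w), (2, α, (t, x₀, x₁, x₂), k)) = (0, 0, 0) := by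
        unfold answer
        rw [if_neg (fun h => hα h.2)]
      rw [this, if_neg hα, h0]
      simpa using hk1
  · rw [mixed_force_ne _ hi]
    have : answer ((M, w), (i, α, (t, x₀, x₁, x₂), k)) = (0, 0, 0) := by
      unfold answer
      rw [if_neg (fun h => hi h.1)]
    rw [this, h0]
    simpa using hk1

end Vale.Agent.H12.P113
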